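import Vale.Agent.P112.F30.Defs

/-!
# P112, chapter (F): density levels, `StFD1` (helper540)
-/

set_option linter.dupNamespace false

open MeasureTheory Set
open scoped ENNReal

namespace Vale.Agent.P112.H540

open T F30

variable {u : ℝ × ℝ → ℝ} {E : Set (ℝ × ℝ)}

theorem meas_q (τ : ℝ) (i : ℕ) : Measurable fun z : ℝ × ℝ => q τ i z.1 := by
  unfold q
  exact Int.measurable_floor.comp (by fun_prop)

theorem meas_fl {f : ℝ × ℝ → ℝ} (hf : Measurable f) (k : ℤ) : MeasurableSet {z | ⌊f z⌋ = k} :=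
  (Int.measurable_floor.comp hf) (measurableSet_singleton k)

theorem meas_Et (hu : Measurable u) (hE : MeasurableSet E) (d : ℕ × ℤ × ℤ × ℤ) :
    MeasurableSet (Et u E d) := by
  have h1 : MeasurableSet {z : ℝ × ℝ | q 0 d.1 z.1 = d.2.1} := meas_q 0 d.1 (measurableSet_singleton _)
  have h2 : MeasurableSet {z : ℝ × ℝ | ⌊u z / 2 ^ d.1⌋ = d.2.2.1} := meas_fl (hu.div_const _) _
  have h3 : MeasurableSet {z : ℝ × ℝ | ⌊z.2 - d.2.2.1 * 2 ^ d.1 * z.1⌋ = d.2.2.2} :=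
    meas_fl (by fun_prop) _
  exact hE.inter (h1.inter (h2.inter h3))

/-- the base of the weight -/
noncomputable def wb (u : ℝ × ℝ → ℝ) (z : ℝ × ℝ) (j : ℕ) (d : ℕ × ℤ × ℤ × ℤ) : ℝ :=
  1 + |u z - d.2.2.1 * 2 ^ d.1| / 2 ^ j + |z.2 - d.2.2.2 - d.2.2.1 * 2 ^ d.1 * z.1|

theorem one_le_wb (z : ℝ × ℝ) (j : ℕ) (d : ℕ × ℤ × ℤ × ℤ) : 1 ≤ wb u z j d := by
  unfold wb
  have h1 : 0 ≤ |u z - d.2.2.1 * 2 ^ d.1| / 2 ^ j := by positivity
  have h2 := abs_nonneg (z.2 - d.2.2.2 - d.2.2.1 * 2 ^ d.1 * z.1)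
  linarith

theorem meas_wb (hu : Measurable u) (j : ℕ) (d : ℕ × ℤ × ℤ × ℤ) : Measurable fun z => wb u z j d := by
  have h1 : Measurable fun z : ℝ × ℝ => |u z - d.2.2.1 * 2 ^ d.1| :=
    continuous_abs.measurable.comp (hu.sub_const _)
  have h2 : Measurable fun z : ℝ × ℝ => |z.2 - d.2.2.2 - d.2.2.1 * 2 ^ d.1 * z.1| :=
    continuous_abs.measurable.comp (by fun_prop)
  exact ((h1.div_const _).const_add 1).add h2

theorem meas_dens (hu : Measurable u) (p j : ℕ) : Measurable fun z => dens u E p z j := by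
  unfold dens
  refine Measurable.iSup fun d => ?_
  refine Measurable.ite ?_ ?_ measurable_const
  · by_cases h : d.1 ≤ j
    · simp only [h, true_and]
      exact meas_q 0 d.1 (measurableSet_singleton _)
    · simp only [h, false_and]
      exact MeasurableSet.empty
  · exact ((meas_wb hu j d).pow_const p).ennreal_ofReal.const_div _

/-- the density of one tile is at most `dens` -/
theorem le_dens {p j : ℕ} {z : ℝ × ℝ} (d : ℕ × ℤ × ℤ × ℤ) (h1 : d.1 ≤ j) (h2 : q 0 d.1 z.1 = d.2.1) :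
    volume (Et u E d) * 2 ^ d.1 / ENNReal.ofReal (wb u z j d ^ p) ≤ dens u E p z j := by
  unfold dens
  refine le_trans (le_of_eq ?_) (le_iSup _ d)
  rw [if_pos ⟨h1, h2⟩]
  rfl

theorem dens_mono {p i j : ℕ} (hij : i ≤ j) (z : ℝ × ℝ) : dens u E p z i ≤ dens u E p z j := by
  unfold dens
  refine iSup_mono fun d => ?_
  by_cases h : d.1 ≤ i ∧ q 0 d.1 z.1 = d.2.1
  · rw [if_pos h, if_pos ⟨h.1.trans hij, h.2⟩]
    refine ENNReal.div_le_div_left (ENNReal.ofReal_le_ofReal ?_) _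
    refine pow_le_pow_left₀ (zero_le_one.trans (one_le_wb z j d)) ?_ p
    have h1 : |u z - d.2.2.1 * 2 ^ d.1| / 2 ^ j ≤ |u z - d.2.2.1 * 2 ^ d.1| / 2 ^ i :=
      div_le_div_of_nonneg_left (abs_nonneg _) (by positivity) (pow_le_pow_right₀ (by norm_num) hij)
    unfold wb
    linarith
  · rw [if_neg h]
    exact zero_le

/-- the volume of a box -/
theorem vol_box (i : ℕ) (k b : ℤ) (s : ℝ) :
    volume {z : ℝ × ℝ | q 0 i z.1 = k ∧ ⌊z.2 - s * z.1⌋ = b} ≤ ENNReal.ofReal (1 / 2 ^ i) := by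
  have hm : MeasurableSet {z : ℝ × ℝ | q 0 i z.1 = k ∧ ⌊z.2 - s * z.1⌋ = b} :=
    (meas_q 0 i (measurableSet_singleton _)).inter (meas_fl (by fun_prop) _)
  have hp : (0:ℝ) < 2 ^ i := by positivity
  rw [Measure.volume_eq_prod, Measure.prod_apply hm]
  have h1 : ∀ x : ℝ, volume (Prod.mk x ⁻¹' {z : ℝ × ℝ | q 0 i z.1 = k ∧ ⌊z.2 - s * z.1⌋ = b}) ≤
      (Ico ((k:ℝ) / 2 ^ i) ((k + 1) / 2 ^ i)).indicator (fun _ => (1 : ℝ≥0∞)) x := by
    intro x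
    by_cases hx : q 0 i x = k
    · have hx' : x ∈ Ico ((k:ℝ) / 2 ^ i) ((k + 1) / 2 ^ i) := by
        unfold q at hx
        rw [sub_zero, Int.floor_eq_iff] at hx
        rw [mem_Ico, div_le_iff₀ hp, lt_div_iff₀ hp]
        constructor <;> [linarith [hx.1]; linarith [hx.2]]
      rw [indicator_of_mem hx']
      have h2 : Prod.mk x ⁻¹' {z : ℝ × ℝ | q 0 i z.1 = k ∧ ⌊z.2 - s * z.1⌋ = b} ⊆
          Ico (b + s * x) (b + s * x + 1) := by
        rintro y ⟨-, hy⟩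
        have hy' : ⌊y - s * x⌋ = b := hy
        rw [Int.floor_eq_iff] at hy'
        rw [mem_Ico]
        constructor <;> linarith [hy'.1, hy'.2]
      refine (measure_mono h2).trans ?_
      rw [Real.volume_Ico]
      simp
    · have h2 : Prod.mk x ⁻¹' {z : ℝ × ℝ | q 0 i z.1 = k ∧ ⌊z.2 - s * z.1⌋ = b} = ∅ := by
        ext y
        simp only [mem_preimage, mem_ofPred_eq, mem_empty_iff_false, iff_false, not_and]
        exact fun h => absurd h hx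
      rw [h2, measure_empty]
      exact zero_le
  refine (lintegral_mono h1).trans ?_
  rw [lintegral_indicator measurableSet_Ico, lintegral_one, Measure.restrict_apply_univ, Real.volume_Ico]
  refine ENNReal.ofReal_le_ofReal (le_of_eq ?_)
  ring

theorem vol_Et (d : ℕ × ℤ × ℤ × ℤ) : volume (Et u E d) ≤ ENNReal.ofReal (1 / 2 ^ d.1) := by
  refine le_trans (measure_mono ?_) (vol_box d.1 d.2.1 d.2.2.2 (d.2.2.1 * 2 ^ d.1))
  rintro z ⟨-, h1, -, h2⟩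
  exact ⟨h1, h2⟩

theorem two_pow_mul (i : ℕ) : ENNReal.ofReal (1 / 2 ^ i) * 2 ^ i = 1 := by
  have h : (2 : ℝ≥0∞) ^ i = ENNReal.ofReal (2 ^ i) := by
    rw [ENNReal.ofReal_pow (by norm_num)]
    norm_num
  rw [h, ← ENNReal.ofReal_mul (by positivity)]
  have : (1 : ℝ) / 2 ^ i * 2 ^ i = 1 := by
    field_simp
  rw [this, ENNReal.ofReal_one]

theorem dens_le_one {p : ℕ} (z : ℝ × ℝ) (j : ℕ) : dens u E p z j ≤ 1 := by
  unfold dens
  refine iSup_le fun d => ?_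
  split_ifs with h
  · refine ENNReal.div_le_of_le_mul ?_
    rw [one_mul]
    calc volume (Et u E d) * 2 ^ d.1 ≤ ENNReal.ofReal (1 / 2 ^ d.1) * 2 ^ d.1 :=
          mul_le_mul_left (vol_Et d) _
      _ = 1 := two_pow_mul _
      _ = ENNReal.ofReal 1 := ENNReal.ofReal_one.symm
      _ ≤ _ := ENNReal.ofReal_le_ofReal (one_le_pow₀ (one_le_wb z j d))
  · exact zero_le

/-- the volume of a tile from the density of a nearby pair -/
theorem vol_Et_le {p j ν : ℕ} {z : ℝ × ℝ} {B : ℝ} (d : ℕ × ℤ × ℤ × ℤ) (h1 : d.1 ≤ j)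
    (h2 : q 0 d.1 z.1 = d.2.1) (hd : dens u E p z j ≤ (1 / 2) ^ ν) (hB : wb u z j d ≤ B) :
    volume (Et u E d) ≤ ENNReal.ofReal (B ^ p * (1 / 2) ^ ν / 2 ^ d.1) := by
  have h3 := (le_dens (p := p) (E := E) (u := u) d h1 h2).trans hd
  have hw := one_le_wb (u := u) z j d
  have hpos : 0 < wb u z j d ^ p := pow_pos (by linarith) p
  rw [ENNReal.div_le_iff (by simpa using hpos) ENNReal.ofReal_ne_top] at h3
  have h4 : (1 / 2 : ℝ≥0∞) ^ ν = ENNReal.ofReal ((1 / 2) ^ ν) := by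
    rw [ENNReal.ofReal_pow (by norm_num), ENNReal.ofReal_div_of_pos (by norm_num)]
    norm_num
  rw [h4, ← ENNReal.ofReal_mul (by positivity)] at h3
  calc volume (Et u E d) = volume (Et u E d) * (ENNReal.ofReal (1 / 2 ^ d.1) * 2 ^ d.1) := by
        rw [two_pow_mul, mul_one]
    _ = volume (Et u E d) * 2 ^ d.1 * ENNReal.ofReal (1 / 2 ^ d.1) := by ring
    _ ≤ ENNReal.ofReal ((1 / 2) ^ ν * wb u z j d ^ p) * ENNReal.ofReal (1 / 2 ^ d.1) :=
        mul_le_mul_left h3 _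
    _ = ENNReal.ofReal ((1 / 2) ^ ν * wb u z j d ^ p * (1 / 2 ^ d.1)) := by
        rw [← ENNReal.ofReal_mul (by positivity)]
    _ ≤ _ := by
        refine ENNReal.ofReal_le_ofReal ?_
        have h5 : wb u z j d ^ p ≤ B ^ p := pow_le_pow_left₀ (by linarith) hB p
        have h6 : (0:ℝ) < (1 / 2) ^ ν := by positivity
        have h7 : (0:ℝ) < 1 / 2 ^ d.1 := by positivity
        calc (1 / 2 : ℝ) ^ ν * wb u z j d ^ p * (1 / 2 ^ d.1) ≤ (1 / 2) ^ ν * B ^ p * (1 / 2 ^ d.1) := by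
              gcongr
          _ = _ := by ring

/-- integers in a window -/
theorem card_win (X R : ℝ) (hR : 0 ≤ R) :
    ∃ s : Finset ℤ, (∀ b : ℤ, |(b:ℝ) - X| ≤ R → b ∈ s) ∧ (s.card : ℝ) ≤ 2 * R + 1 := by
  refine ⟨Finset.Icc ⌈X - R⌉ ⌊X + R⌋, fun b hb => ?_, ?_⟩
  · rw [abs_le] at hb
    rw [Finset.mem_Icc, Int.ceil_le, Int.le_floor]
    constructor <;> linarith [hb.1, hb.2]
  · rw [Int.card_Icc]
    have h1 := Int.floor_le (X + R)
    have h2 := Int.le_ceil (X - R)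
    rcases le_total 0 (⌊X + R⌋ + 1 - ⌈X - R⌉) with h | h
    · have h3 : ((⌊X + R⌋ + 1 - ⌈X - R⌉).toNat : ℝ) = ((⌊X + R⌋ + 1 - ⌈X - R⌉ : ℤ) : ℝ) := by
        exact_mod_cast Int.toNat_of_nonneg h
      rw [h3]
      push_cast
      linarith
    · rw [Int.toNat_of_nonpos h]
      push_cast
      linarith

/-- the nested density hypothesis -/
theorem densN_of {p n ν : ℕ} {P : ℕ → Set (ℝ × ℝ)} (hP : ∀ j, P j ⊆ E)
    (hd : ∀ j, ∀ z ∈ P j, dens u E p z j ≤ (1 / 2) ^ ν) :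
    DensN 1 u P n 0 (p + 2) (36 * 9 ^ p * (1 / 2) ^ ν) := by
  classical
  intro j1 hj1 z1 hz1 lam hlam θ c hθ hc i hi
  rw [div_one] at hθ
  have hpi : (0:ℝ) < 2 ^ i := by positivity
  have hpj : (0:ℝ) < 2 ^ j1 := by positivity
  have hij : (2:ℝ) ^ i ≤ 2 ^ j1 := pow_le_pow_right₀ (by norm_num) hi
  obtain ⟨A, hA, hAc⟩ := card_win (θ / 2 ^ i - 1 / 2) (lam + 1 / 2) (by linarith)
  have hBex : ∀ a : ℤ, ∃ s : Finset ℤ, (∀ b : ℤ, |(b:ℝ) - (c + (θ - a * 2 ^ i) * z1.1)| ≤ 2 * lam + 2 → b ∈ s) ∧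
      (s.card : ℝ) ≤ 2 * (2 * lam + 2) + 1 := fun a => card_win _ _ (by linarith)
  choose Bs hBs hBc using hBex
  set k : ℤ := q 0 i z1.1 with hk
  -- the tiles which are used
  set T : Finset (ℤ × ℤ) := (A.sigma Bs).image fun x => (x.1, x.2) with hT
  have hTc : (T.card : ℝ) ≤ 36 * lam ^ 2 := by
    have h1 : T.card ≤ (A.sigma Bs).card := Finset.card_image_le
    have h2 : ((A.sigma Bs).card : ℝ) ≤ A.card * (2 * (2 * lam + 2) + 1) := by
      rw [Finset.card_sigma]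
      push_cast
      calc ∑ a ∈ A, ((Bs a).card : ℝ) ≤ ∑ _a ∈ A, (2 * (2 * lam + 2) + 1) := Finset.sum_le_sum fun a _ => hBc a
        _ = _ := by rw [Finset.sum_const, nsmul_eq_mul]
    have h3 : (T.card : ℝ) ≤ (A.sigma Bs).card := by exact_mod_cast h1
    have h4 : (A.card : ℝ) * (2 * (2 * lam + 2) + 1) ≤ (4 * lam) * (9 * lam) :=
      mul_le_mul (by linarith) (by linarith) (by linarith) (by linarith)
    calc (T.card : ℝ) ≤ _ := h3
      _ ≤ _ := h2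
      _ ≤ _ := h4
      _ = _ := by ring
  -- bounds for a point of the set
  have hpt : ∀ z : ℝ × ℝ, q 0 i z.1 = k → |z.2 - c - θ * z.1| ≤ lam → |u z - θ| ≤ lam * 2 ^ i →
      |θ - (⌊u z / 2 ^ i⌋ : ℝ) * 2 ^ i| ≤ (lam + 1) * 2 ^ i ∧
      |(⌊z.2 - (⌊u z / 2 ^ i⌋ : ℝ) * 2 ^ i * z.1⌋ : ℝ) - (c + (θ - (⌊u z / 2 ^ i⌋ : ℝ) * 2 ^ i) * z1.1)| ≤
        2 * lam + 2 ∧ (⌊u z / 2 ^ i⌋ : ℤ) ∈ A := by
    intro z hq h1 h2
    set a : ℤ := ⌊u z / 2 ^ i⌋ with ha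
    have h3 : (a : ℝ) * 2 ^ i ≤ u z := by
      rw [← le_div_iff₀ hpi]
      exact Int.floor_le _
    have h4 : u z < (a + 1) * 2 ^ i := by
      rw [← div_lt_iff₀ hpi]
      exact Int.lt_floor_add_one _
    rw [abs_le] at h2
    have h5 : |θ - (a : ℝ) * 2 ^ i| ≤ (lam + 1) * 2 ^ i := by
      rw [abs_le]
      constructor <;> nlinarith [h2.1, h2.2]
    refine ⟨h5, ?_, ?_⟩
    · have h6 : |z.1 - z1.1| ≤ 1 / 2 ^ i := by
        have e1 : q 0 i z.1 = q 0 i z1.1 := hq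
        unfold q at e1
        have h7 := Int.abs_sub_lt_one_of_floor_eq_floor e1
        rw [le_div_iff₀ hpi]
        have h8 : (2:ℝ) ^ i * (z.1 - 0) - 2 ^ i * (z1.1 - 0) = (z.1 - z1.1) * 2 ^ i := by ring
        rw [h8, abs_mul, abs_of_pos hpi] at h7
        exact h7.le
      have h7 : |(θ - (a : ℝ) * 2 ^ i) * (z.1 - z1.1)| ≤ lam + 1 := by
        rw [abs_mul]
        calc |θ - (a : ℝ) * 2 ^ i| * |z.1 - z1.1| ≤ ((lam + 1) * 2 ^ i) * (1 / 2 ^ i) :=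
              mul_le_mul h5 h6 (abs_nonneg _) (by positivity)
          _ = lam + 1 := by field_simp
      have h8 := Int.floor_le (z.2 - (a : ℝ) * 2 ^ i * z.1)
      have h9 := Int.lt_floor_add_one (z.2 - (a : ℝ) * 2 ^ i * z.1)
      rw [abs_le] at h1 h7 ⊢
      constructor <;> nlinarith [h1.1, h1.2, h7.1, h7.2]
    · refine hA a ?_
      have h6 : θ / 2 ^ i ≤ a + 1 + lam := by
        rw [div_le_iff₀ hpi]
        nlinarith [h2.1]
      have h7 : (a : ℝ) - lam ≤ θ / 2 ^ i := by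
        rw [le_div_iff₀ hpi]
        nlinarith [h2.2]
      rw [abs_le]
      constructor <;> linarith
  -- covering
  have hcov : {z : ℝ × ℝ | z ∈ Un P n ∧ q 0 i z.1 = q 0 i z1.1 ∧
      |z.2 - c - θ * z.1| ≤ lam ∧ |u z - θ| ≤ lam * 2 ^ i / 1} ⊆
      ⋃ t ∈ T.filter (fun t => (Et u E (i, k, t.1, t.2) ∩ {z : ℝ × ℝ | q 0 i z.1 = k ∧ |z.2 - c - θ * z.1| ≤ lam ∧
        |u z - θ| ≤ lam * 2 ^ i}).Nonempty), Et u E (i, k, t.1, t.2) := by
    rintro z ⟨⟨j, -, hj⟩, h1, h2, h3⟩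
    rw [div_one] at h3
    obtain ⟨g1, g2, g3⟩ := hpt z h1 h2 h3
    have hz : z ∈ Et u E (i, k, ⌊u z / 2 ^ i⌋, ⌊z.2 - (⌊u z / 2 ^ i⌋ : ℝ) * 2 ^ i * z.1⌋) :=
      ⟨hP j hj, h1, rfl, rfl⟩
    rw [mem_iUnion₂]
    refine ⟨(⌊u z / 2 ^ i⌋, ⌊z.2 - (⌊u z / 2 ^ i⌋ : ℝ) * 2 ^ i * z.1⌋), ?_, hz⟩
    rw [Finset.mem_filter]
    refine ⟨?_, ⟨z, hz, h1, h2, h3⟩⟩
    rw [hT, Finset.mem_image]
    exact ⟨⟨_, _⟩, Finset.mem_sigma.2 ⟨g3, hBs _ _ g2⟩, rfl⟩
  refine (measure_mono hcov).trans ((measure_biUnion_finset_le _ _).trans ?_)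
  have hone : ∀ t ∈ T.filter (fun t => (Et u E (i, k, t.1, t.2) ∩ {z : ℝ × ℝ | q 0 i z.1 = k ∧
      |z.2 - c - θ * z.1| ≤ lam ∧ |u z - θ| ≤ lam * 2 ^ i}).Nonempty),
      volume (Et u E (i, k, t.1, t.2)) ≤ ENNReal.ofReal ((9 * lam) ^ p * (1 / 2) ^ ν / 2 ^ i) := by
    intro t ht
    rw [Finset.mem_filter] at ht
    obtain ⟨z, ⟨-, -, e1, e2⟩, h1, h2, h3⟩ := ht.2
    obtain ⟨g1, g2, -⟩ := hpt z h1 h2 h3
    have e1' : ⌊u z / 2 ^ i⌋ = t.1 := e1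
    rw [e1'] at g1 g2
    have e2' : ⌊z.2 - (t.1 : ℝ) * 2 ^ i * z.1⌋ = t.2 := e2
    rw [e2'] at g2
    refine vol_Et_le (i, k, t.1, t.2) hi rfl (hd j1 z1 hz1) ?_
    show 1 + |u z1 - t.1 * 2 ^ i| / 2 ^ j1 + |z1.2 - t.2 - t.1 * 2 ^ i * z1.1| ≤ 9 * lam
    have w1 : |u z1 - t.1 * 2 ^ i| / 2 ^ j1 ≤ 2 * lam + 1 := by
      rw [div_le_iff₀ hpj]
      have : u z1 - t.1 * 2 ^ i = (θ - t.1 * 2 ^ i) - (θ - u z1) := by ring
      rw [this]
      refine (abs_sub _ _).trans ?_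
      nlinarith
    have w2 : |z1.2 - t.2 - t.1 * 2 ^ i * z1.1| ≤ lam + (2 * lam + 2) := by
      have : z1.2 - t.2 - t.1 * 2 ^ i * z1.1 = (z1.2 - c - θ * z1.1) -
        ((t.2 : ℝ) - (c + (θ - t.1 * 2 ^ i) * z1.1)) := by ring
      rw [this]
      exact (abs_sub _ _).trans (add_le_add hc g2)
    linarith
  refine (Finset.sum_le_sum hone).trans ?_
  rw [Finset.sum_const, nsmul_eq_mul]
  have hcard : ((T.filter (fun t => (Et u E (i, k, t.1, t.2) ∩ {z : ℝ × ℝ | q 0 i z.1 = k ∧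
      |z.2 - c - θ * z.1| ≤ lam ∧ |u z - θ| ≤ lam * 2 ^ i}).Nonempty)).card : ℝ≥0∞) ≤
      ENNReal.ofReal (36 * lam ^ 2) := by
    have h1 : ((T.filter (fun t => (Et u E (i, k, t.1, t.2) ∩ {z : ℝ × ℝ | q 0 i z.1 = k ∧
      |z.2 - c - θ * z.1| ≤ lam ∧ |u z - θ| ≤ lam * 2 ^ i}).Nonempty)).card : ℝ) ≤ 36 * lam ^ 2 :=
      le_trans (by exact_mod_cast Finset.card_filter_le _ _) hTc
    rw [← ENNReal.ofReal_natCast]
    exact ENNReal.ofReal_le_ofReal h1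
  calc _ ≤ ENNReal.ofReal (36 * lam ^ 2) * ENNReal.ofReal ((9 * lam) ^ p * (1 / 2) ^ ν / 2 ^ i) :=
        mul_le_mul_left hcard _
    _ = ENNReal.ofReal (36 * lam ^ 2 * ((9 * lam) ^ p * (1 / 2) ^ ν / 2 ^ i)) := by
        rw [← ENNReal.ofReal_mul (by positivity)]
    _ = _ := by
        congr 1
        rw [mul_pow]
        ring

/-- **FD1** -/
theorem stFD1 (p : ℕ) : StFD1 p := by
  refine ⟨36 * 9 ^ p, ?_, fun u hu E hE hb n ν => ⟨?_, ?_, ?_, ?_, ?_⟩⟩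
  · have : (1:ℝ) ≤ 9 ^ p := one_le_pow₀ (by norm_num)
    linarith
  · refine ⟨fun j => ?_, ?_, ?_, ?_⟩
    · have h1 : MeasurableSet {z : ℝ × ℝ | (1 / 2 : ℝ≥0∞) ^ (ν + 1) < dens u E p z j} :=
        measurableSet_lt measurable_const (meas_dens hu.meas p j)
      have h2 : MeasurableSet {z : ℝ × ℝ | dens u E p z j ≤ (1 / 2 : ℝ≥0∞) ^ ν} :=
        measurableSet_le (meas_dens hu.meas p j) measurable_const
      exact hE.inter ((MeasurableSet.const _).inter (h1.inter h2))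
    · obtain ⟨r, hr⟩ := hb
      exact ⟨r, fun j z hz => hr z hz.1⟩
    · intro j hj
      ext z
      simp only [Pd, mem_ofPred_eq, mem_empty_iff_false, iff_false]
      rintro ⟨-, h, -⟩
      omega
    · intro z i j k hij hjk hi hk
      exact ⟨hi.1, lt_of_le_of_lt hjk hk.2.1, hi.2.2.1.trans_le (dens_mono hij z),
        (dens_mono hjk z).trans hk.2.2.2⟩
  · exact fun z _ j _ => dens_le_one z j
  · intro j
    have h2 : MeasurableSet {z : ℝ × ℝ | dens u E p z j ≤ (1 / 2 : ℝ≥0∞) ^ ν} :=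
      measurableSet_le (meas_dens hu.meas p j) measurable_const
    exact hE.inter ((MeasurableSet.const _).inter h2)
  · exact densN_of (fun j z hz => hz.1) fun j z hz => hz.2.2.2
  · exact densN_of (fun j z hz => hz.1) fun j z hz => hz.2.2

end Vale.Agent.P112.H540
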