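import Vale.Agent.P112.H540.StSplit
import Vale.Agent.P112.H694.Acc

/-!
# P112, chapter (G), route 2: accounting for the parts of a family `R2.Tr` (helper540)

`F.sum = good.sum + bad.sum`, `F.sum = low.sum + high.sum`, the forms `∫ f F.sum`, measurability of
`low` / `high`, finiteness of the high tiles, own density of the low part.
-/

open MeasureTheory Set
open scoped ENNReal

set_option linter.dupNamespace false

noncomputable section

namespace Vale.Agent.P112.H540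

open T

section

variable (F : R2.Tr)

theorem off_eq (i : F.ι) (z : ℝ × ℝ) : F.off i z = z.2 - F.c i - F.s i * z.1 := by
  unfold R2.Tr.off
  ring

theorem floor_off (i : F.ι) (z : ℝ × ℝ) : ⌊F.off i z⌋ = oc F.s F.c i z := by
  unfold oc
  rw [off_eq]

theorem tile_eq (i : F.ι) (j : ℕ) (z : ℝ × ℝ) :
    F.E i j ∩ F.tile i j z = tl 0 F.s F.c F.E (tp 0 F.s F.c i j z) := by
  ext z'
  simp only [R2.Tr.tile, tl, tp, mem_inter_iff, mem_ofPred_eq, floor_off]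

theorem low_eq (δ : ℝ) (i : F.ι) (j : ℕ) : (F.low δ).E i j = LowP 0 F.s F.c F.E δ i j := by
  ext z
  show (z ∈ F.E i j ∧ _) ↔ (z ∈ F.E i j ∧ _)
  rw [tile_eq]

theorem high_eq (δ : ℝ) (i : F.ι) (j : ℕ) : (F.high δ).E i j = HiP 0 F.s F.c F.E δ i j := by
  ext z
  show (z ∈ F.E i j ∧ _) ↔ (z ∈ F.E i j ∧ _)
  rw [tile_eq]

variable {F}

theorem meas_rlow (hE : ∀ i j, MeasurableSet (F.E i j)) (δ : ℝ) (i : F.ι) (j : ℕ) :
    MeasurableSet ((F.low δ).E i j) := by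
  rw [low_eq]
  exact meas_low hE δ i j

theorem meas_rhigh (hE : ∀ i j, MeasurableSet (F.E i j)) (δ : ℝ) (i : F.ι) (j : ℕ) :
    MeasurableSet ((F.high δ).E i j) := by
  rw [high_eq]
  exact meas_hi hE δ i j

variable (F)

theorem rlow_union (δ : ℝ) (i : F.ι) (j : ℕ) :
    (F.low δ).E i j ∪ (F.high δ).E i j = F.E i j := by
  rw [low_eq, high_eq]
  exact low_union_hi 0 F.s F.c F.E δ i j

theorem rlow_disj (δ : ℝ) (i : F.ι) (j : ℕ) :
    Disjoint ((F.low δ).E i j) ((F.high δ).E i j) := by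
  rw [low_eq, high_eq]
  exact low_disj_hi 0 F.s F.c F.E δ i j

theorem low_add_high (δ : ℝ) (i : F.ι) (j : ℕ) (g : ℝ × ℝ → ℝ) (z : ℝ × ℝ) :
    (F.E i j).indicator g z =
      ((F.low δ).E i j).indicator g z + ((F.high δ).E i j).indicator g z := by
  rw [← rlow_union F δ i j, Set.indicator_union_of_disjoint (rlow_disj F δ i j)]

variable {F} (G : R2.Cells F)

theorem good_union (Q H : ℝ) (i : F.ι) (j : ℕ) :
    (G.good Q H).E i j ∪ (G.bad Q H).E i j = F.E i j := by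
  ext z
  constructor
  · rintro (h | h)
    · exact h.1
    · exact h.1
  · intro hz
    by_cases h : ∃ i', G.Wit Q H i j z i'
    · exact Or.inr ⟨hz, h⟩
    · exact Or.inl ⟨hz, fun i' hw => h ⟨i', hw⟩⟩

theorem good_disj (Q H : ℝ) (i : F.ι) (j : ℕ) :
    Disjoint ((G.good Q H).E i j) ((G.bad Q H).E i j) := by
  rw [Set.disjoint_left]
  rintro z ⟨_, h1⟩ ⟨_, i', h2⟩
  exact h1 i' h2

end

section

variable {M : ℕ} (κ : Ker M) {F : R2.Tr} {u : ℝ × ℝ → ℝ}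

/-- The sum of a family is nice. -/
theorem sum_nice (hu : Field u) {g : ℝ × ℝ → ℝ} (hg : Nice g)
    (hE : ∀ i j, MeasurableSet (F.E i j)) (n : ℕ) : Nice (F.sum κ u g n) :=
  Nice.sum _ fun i _ => κ.FS_nice hu hg (hE i) n

theorem sum_good_bad (hu : Field u) {g : ℝ × ℝ → ℝ} (hg : Nice g) (G : R2.Cells F)
    (hE : ∀ i j, MeasurableSet (F.E i j)) (Q H : ℝ) (n : ℕ) (ζ : ℝ × ℝ) :
    F.sum κ u g n ζ = (G.good Q H).sum κ u g n ζ + (G.bad Q H).sum κ u g n ζ := by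
  have h1 : ∀ i j, MeasurableSet ((G.bad Q H).E i j) := fun i j =>
    (hE i j).inter (meas_exwit G Q H i j)
  have h2 : ∀ i j, MeasurableSet ((G.good Q H).E i j) := fun i j => by
    have e : (G.good Q H).E i j = F.E i j \ {z | ∃ i', G.Wit Q H i j z i'} := by
      ext z
      show (z ∈ F.E i j ∧ ∀ i', ¬ G.Wit Q H i j z i') ↔ _
      simp
    rw [e]
    exact (hE i j).diff (meas_exwit G Q H i j)
  unfold R2.Tr.sum
  show ∑ i : F.ι, κ.FS u g (F.E i) n ζ = ∑ i : F.ι, κ.FS u g ((G.good Q H).E i) n ζ +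
    ∑ i : F.ι, κ.FS u g ((G.bad Q H).E i) n ζ
  rw [← Finset.sum_add_distrib]
  exact Finset.sum_congr rfl fun i _ =>
    FS_union κ hu hg (h2 i) (h1 i) (good_union G Q H i) (good_disj G Q H i) ζ

theorem sum_low_high (hu : Field u) {g : ℝ × ℝ → ℝ} (hg : Nice g)
    (hE : ∀ i j, MeasurableSet (F.E i j)) (δ : ℝ) (n : ℕ) (ζ : ℝ × ℝ) :
    F.sum κ u g n ζ = (F.low δ).sum κ u g n ζ + (F.high δ).sum κ u g n ζ := by
  unfold R2.Tr.sum
  show ∑ i : F.ι, κ.FS u g (F.E i) n ζ = ∑ i : F.ι, κ.FS u g ((F.low δ).E i) n ζ +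
    ∑ i : F.ι, κ.FS u g ((F.high δ).E i) n ζ
  rw [← Finset.sum_add_distrib]
  exact Finset.sum_congr rfl fun i _ =>
    FS_union κ hu hg (meas_rlow hE δ i) (meas_rhigh hE δ i) (rlow_union F δ i) (rlow_disj F δ i) ζ

/-- The sum of a family with given total indicators (`StDepth`'s last conclusion). -/
theorem sum_of_indicator (hu : Field u) {g : ℝ × ℝ → ℝ} (hg : Nice g)
    (hE : ∀ i j, MeasurableSet (F.E i j)) {K : ℕ} {F' : Fin K → R2.Tr} {R : ℕ → Set (ℝ × ℝ)}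
    (hE' : ∀ k i j, MeasurableSet ((F' k).E i j)) (hR : ∀ j, MeasurableSet (R j)) {n : ℕ}
    (h : ∀ j z, ∑ i, (F.E i j).indicator (1 : ℝ × ℝ → ℝ) z =
      (∑ k, ∑ i, ((F' k).E i j).indicator (1 : ℝ × ℝ → ℝ) z) +
        (R j).indicator (1 : ℝ × ℝ → ℝ) z) (ζ : ℝ × ℝ) :
    F.sum κ u g n ζ = ∑ k, (F' k).sum κ u g n ζ + κ.FS u g R n ζ := by
  have hind : ∀ (E : Set (ℝ × ℝ)) z, E.indicator g z = g z * E.indicator 1 z := by
    intro E z
    by_cases hz : z ∈ E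
    · simp [hz]
    · simp [hz]
  have hS : ∀ j {ι : Type} [Fintype ι] (E : ι → Set (ℝ × ℝ)), (∀ i, MeasurableSet (E i)) →
      ∑ i, κ.S u j ((E i).indicator g) ζ =
        κ.S u j (fun z => ∑ i, (E i).indicator g z) ζ := fun j ι _ E hm =>
    (S_finset κ hu j Finset.univ (fun i _ => hg.indicator (hm i)) ζ).symm
  have e1 : F.sum κ u g n ζ = ∑ j ∈ Finset.range n,
      κ.S u j (fun z => ∑ i, (F.E i j).indicator g z) ζ := by
    unfold R2.Tr.sum Ker.FS
    rw [Finset.sum_comm]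
    exact Finset.sum_congr rfl fun j _ => hS j (fun i => F.E i j) fun i => hE i j
  have e2 : ∑ k, (F' k).sum κ u g n ζ = ∑ j ∈ Finset.range n,
      κ.S u j (fun z => ∑ k, ∑ i, ((F' k).E i j).indicator g z) ζ := by
    have e3 : ∀ k, (F' k).sum κ u g n ζ = ∑ j ∈ Finset.range n,
        κ.S u j (fun z => ∑ i, ((F' k).E i j).indicator g z) ζ := by
      intro k
      unfold R2.Tr.sum Ker.FS
      rw [Finset.sum_comm]
      exact Finset.sum_congr rfl fun j _ => hS j (fun i => (F' k).E i j) fun i => hE' k i j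
    simp_rw [e3]
    rw [Finset.sum_comm]
    refine Finset.sum_congr rfl fun j _ => ?_
    exact (S_finset κ hu j Finset.univ
      (fun k _ => Nice.sum _ fun i _ => hg.indicator (hE' k i j)) ζ).symm
  rw [e1, e2]
  unfold Ker.FS
  rw [← Finset.sum_add_distrib]
  refine Finset.sum_congr rfl fun j _ => ?_
  have n1 : Nice (fun z => ∑ k, ∑ i, ((F' k).E i j).indicator g z) :=
    Nice.sum _ fun k _ => Nice.sum _ fun i _ => hg.indicator (hE' k i j)
  have n2 : Nice ((R j).indicator g) := hg.indicator (hR j)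
  have e4 : (fun z => ∑ i, (F.E i j).indicator g z) = fun z =>
      (∑ k, ∑ i, ((F' k).E i j).indicator g z) + (R j).indicator g z := by
    funext z
    simp_rw [hind, ← Finset.mul_sum]
    rw [h j z, mul_add]
  rw [e4]
  unfold Ker.S
  simp_rw [mul_add]
  exact integral_add (integrable_S_int κ hu j n1 ζ) (integrable_S_int κ hu j n2 ζ)

/-- Forms of sums. -/
theorem form_add {f a b : ℝ × ℝ → ℝ} (hf : Nice f) (ha : Nice a) (hb : Nice b) :
    ∫ ζ, f ζ * (a ζ + b ζ) = (∫ ζ, f ζ * a ζ) + ∫ ζ, f ζ * b ζ := by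
  simp_rw [mul_add]
  exact integral_add (hf.mul ha).integrable (hf.mul hb).integrable

theorem form_good_bad (hu : Field u) {f g : ℝ × ℝ → ℝ} (hf : Nice f) (hg : Nice g)
    (G : R2.Cells F) {P : ℕ → Set (ℝ × ℝ)} {A w : ℝ} (hF : F.Ok u P A w) {Q : ℝ} (hQ : 0 ≤ Q)
    (H : ℝ) (n : ℕ) :
    ∫ ζ, f ζ * F.sum κ u g n ζ = (∫ ζ, f ζ * (G.good Q H).sum κ u g n ζ) +
      ∫ ζ, f ζ * (G.bad Q H).sum κ u g n ζ := by
  rw [← form_add hf (sum_nice κ hu hg (good_ok G hQ hF).meas n)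
    (sum_nice κ hu hg (bad_ok G hQ hF).meas n)]
  simp_rw [sum_good_bad κ hu hg G hF.meas Q H n]

theorem form_low_high (hu : Field u) {f g : ℝ × ℝ → ℝ} (hf : Nice f) (hg : Nice g)
    (hE : ∀ i j, MeasurableSet (F.E i j)) (δ : ℝ) (n : ℕ) :
    ∫ ζ, f ζ * F.sum κ u g n ζ = (∫ ζ, f ζ * (F.low δ).sum κ u g n ζ) +
      ∫ ζ, f ζ * (F.high δ).sum κ u g n ζ := by
  have h1 : Nice ((F.low δ).sum κ u g n) :=
    sum_nice κ hu hg (F := F.low δ) (fun i j => meas_rlow (F := F) hE δ i j) n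
  have h2 : Nice ((F.high δ).sum κ u g n) :=
    sum_nice κ hu hg (F := F.high δ) (fun i j => meas_rhigh (F := F) hE δ i j) n
  rw [← form_add hf h1 h2]
  simp_rw [sum_low_high κ hu hg hE δ n]

end

/-! ### high tiles, own density -/

section

variable {F : R2.Tr} {u : ℝ × ℝ → ℝ} {A : ℝ}

/-- Own density of the low part, seen from any point. -/
theorem own_rlow (hA : 0 ≤ A) (hs : ∀ i j, ∀ z ∈ F.E i j, |u z - F.s i| ≤ A * 2 ^ j) {δ : ℝ}
    (hδ : 0 ≤ δ) (i : F.ι) (j : ℕ) (ζ : ℝ × ℝ) :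
    volume {z | z ∈ (F.low δ).E i j ∧ R2.Over u j z ζ} ≤
      ENNReal.ofReal ((A + 12) * δ / 2 ^ j) := by
  refine le_trans (measure_mono ?_) (own_low (τ := 0) (s := F.s) (c := F.c) hA hs hδ i j ζ)
  rintro z ⟨h1, h2, h3⟩
  rw [low_eq] at h1
  refine ⟨h1, h2, ?_⟩
  have e : ζ.2 - z.2 - (ζ.1 - z.1) * u z = -(z.2 - ζ.2 - (z.1 - ζ.1) * u z) := by ring
  rw [e, abs_neg]
  exact h3

/-- Finitely many high tiles. -/
theorem HT_finite_R2 (hE : ∀ i j, MeasurableSet (F.E i j)) (hv : ∀ i j, volume (F.E i j) ≠ ⊤)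
    {δ : ℝ} (hδ : 0 < δ) (n : ℕ) : (HT 0 F.s F.c F.E δ n).Finite :=
  HT_finite hE hv hδ n

end

end Vale.Agent.P112.H540
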