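import Vale.Agent.P112.H540.Split
import Vale.Agent.P112.T.Cor

/-!
# P112, chapter (G), block [SPLIT], part 2: tiles of low and of high own density (helper540)

A tile of the family `B` : tree `i`, scale `j`, cell of level `j`, unit offset relative to the line
of the tree. `LowP`: points in tiles of own density `< κ`; `HiP`: the others, a finite union of tiles.
-/

open MeasureTheory Set
open scoped ENNReal

set_option linter.dupNamespace false

noncomputable section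

namespace Vale.Agent.P112.H540

open T

section

variable {ι : Type} (τ : ℝ) (s c : ι → ℝ) (B : ι → ℕ → Set (ℝ × ℝ))

/-- The offset cell of a point. -/
def oc (i : ι) (z : ℝ × ℝ) : ℤ := ⌊z.2 - c i - s i * z.1⌋

/-- The tile `(i, j, k, o)` of the family `B`. -/
def tl (p : ι × ℕ × ℤ × ℤ) : Set (ℝ × ℝ) :=
  {z | z ∈ B p.1 p.2.1 ∧ q τ p.2.1 z.1 = p.2.2.1 ∧ oc s c p.1 z = p.2.2.2}

/-- The tile of a point. -/
def tp (i : ι) (j : ℕ) (z : ℝ × ℝ) : ι × ℕ × ℤ × ℤ := (i, j, q τ j z.1, oc s c i z)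

/-- The points in tiles of low own density. -/
def LowP (κ : ℝ) (i : ι) (j : ℕ) : Set (ℝ × ℝ) :=
  {z | z ∈ B i j ∧ volume (tl τ s c B (tp τ s c i j z)) < ENNReal.ofReal (κ / 2 ^ j)}

/-- The points in tiles of high own density. -/
def HiP (κ : ℝ) (i : ι) (j : ℕ) : Set (ℝ × ℝ) :=
  {z | z ∈ B i j ∧ ENNReal.ofReal (κ / 2 ^ j) ≤ volume (tl τ s c B (tp τ s c i j z))}

theorem low_sub (κ : ℝ) (i : ι) (j : ℕ) : LowP τ s c B κ i j ⊆ B i j := fun _ h => h.1

theorem hi_sub (κ : ℝ) (i : ι) (j : ℕ) : HiP τ s c B κ i j ⊆ B i j := fun _ h => h.1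

theorem low_union_hi (κ : ℝ) (i : ι) (j : ℕ) :
    LowP τ s c B κ i j ∪ HiP τ s c B κ i j = B i j := by
  ext z
  constructor
  · rintro (h | h) <;> exact h.1
  · intro hz
    rcases lt_or_ge (volume (tl τ s c B (tp τ s c i j z))) (ENNReal.ofReal (κ / 2 ^ j)) with h | h
    · exact Or.inl ⟨hz, h⟩
    · exact Or.inr ⟨hz, h⟩

theorem low_disj_hi (κ : ℝ) (i : ι) (j : ℕ) :
    Disjoint (LowP τ s c B κ i j) (HiP τ s c B κ i j) := by
  rw [Set.disjoint_left]
  rintro z ⟨_, h1⟩ ⟨_, h2⟩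
  exact absurd h2 (not_le.2 h1)

theorem meas_oc (i : ι) : Measurable (oc s c i) := by
  unfold oc
  exact Int.measurable_floor.comp (by fun_prop)

theorem meas_qo (i : ι) (j : ℕ) : Measurable fun z : ℝ × ℝ => ((q τ j z.1, oc s c i z) : ℤ × ℤ) :=
  (meas_qq τ j).prodMk (meas_oc s c i)

variable {τ s c B}

theorem meas_tl (hB : ∀ i j, MeasurableSet (B i j)) (p : ι × ℕ × ℤ × ℤ) :
    MeasurableSet (tl τ s c B p) := by
  have : tl τ s c B p = B p.1 p.2.1 ∩
      (fun z : ℝ × ℝ => ((q τ p.2.1 z.1, oc s c p.1 z) : ℤ × ℤ)) ⁻¹' {p.2.2} := by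
    ext z
    simp only [tl, mem_ofPred_eq, mem_inter_iff, mem_preimage, mem_singleton_iff]
    rw [Prod.ext_iff]
  rw [this]
  exact (hB _ _).inter (meas_qo τ s c p.1 p.2.1 (MeasurableSet.of_discrete))

theorem meas_low (hB : ∀ i j, MeasurableSet (B i j)) (κ : ℝ) (i : ι) (j : ℕ) :
    MeasurableSet (LowP τ s c B κ i j) := by
  have : LowP τ s c B κ i j = B i j ∩
      (fun z : ℝ × ℝ => ((q τ j z.1, oc s c i z) : ℤ × ℤ)) ⁻¹'
        {p | volume (tl τ s c B (i, j, p)) < ENNReal.ofReal (κ / 2 ^ j)} := rfl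
  rw [this]
  exact (hB _ _).inter (meas_qo τ s c i j (MeasurableSet.of_discrete))

theorem meas_hi (hB : ∀ i j, MeasurableSet (B i j)) (κ : ℝ) (i : ι) (j : ℕ) :
    MeasurableSet (HiP τ s c B κ i j) := by
  have : HiP τ s c B κ i j = B i j ∩
      (fun z : ℝ × ℝ => ((q τ j z.1, oc s c i z) : ℤ × ℤ)) ⁻¹'
        {p | ENNReal.ofReal (κ / 2 ^ j) ≤ volume (tl τ s c B (i, j, p))} := rfl
  rw [this]
  exact (hB _ _).inter (meas_qo τ s c i j (MeasurableSet.of_discrete))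

theorem tl_disj {i : ι} {j : ℕ} {p p' : ℤ × ℤ} (h : p ≠ p') :
    Disjoint (tl τ s c B (i, j, p)) (tl τ s c B (i, j, p')) := by
  rw [Set.disjoint_left]
  rintro z ⟨_, h1, h2⟩ ⟨_, h3, h4⟩
  exact h (Prod.ext (h1.symm.trans h3) (h2.symm.trans h4))

/-- The tiles of high own density. -/
def HT (τ : ℝ) (s c : ι → ℝ) (B : ι → ℕ → Set (ℝ × ℝ)) (κ : ℝ) (n : ℕ) :
    Set (ι × ℕ × ℤ × ℤ) :=
  {p | p.2.1 < n ∧ ENNReal.ofReal (κ / 2 ^ p.2.1) ≤ volume (tl τ s c B p)}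

/-- There are finitely many of them. -/
theorem HT_finite [Finite ι] (hB : ∀ i j, MeasurableSet (B i j))
    (hv : ∀ i j, volume (B i j) ≠ ⊤) {κ : ℝ} (hκ : 0 < κ) (n : ℕ) :
    (HT τ s c B κ n).Finite := by
  have h1 : HT τ s c B κ n ⊆ ⋃ i : ι, ⋃ j ∈ Finset.range n,
      (fun r : ℤ × ℤ => ((i, j, r) : ι × ℕ × ℤ × ℤ)) ''
        {r | ENNReal.ofReal (κ / 2 ^ j) ≤ volume (tl τ s c B (i, j, r))} := by
    rintro ⟨i, j, r⟩ ⟨h1, h2⟩
    simp only [mem_iUnion]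
    exact ⟨i, j, Finset.mem_range.2 h1, r, h2, rfl⟩
  refine Set.Finite.subset ?_ h1
  refine Set.finite_iUnion fun i => Set.Finite.biUnion (Finset.finite_toSet _) fun j _ => ?_
  refine Set.Finite.image _ ?_
  refine Measure.finite_const_le_meas_of_disjoint_iUnion volume
    (by rw [ENNReal.ofReal_pos]; positivity) (fun r => meas_tl hB (i, j, r))
    (fun r r' hr => tl_disj hr) ?_
  refine ne_top_of_le_ne_top (hv i j) (measure_mono ?_)
  exact Set.iUnion_subset fun r => fun z hz => hz.1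

theorem hi_eq (κ : ℝ) {n : ℕ} (i : ι) {j : ℕ} (hj : j < n) (z : ℝ × ℝ) :
    z ∈ HiP τ s c B κ i j ↔ ∃ p ∈ HT τ s c B κ n, p.1 = i ∧ p.2.1 = j ∧ z ∈ tl τ s c B p := by
  constructor
  · rintro ⟨h1, h2⟩
    exact ⟨tp τ s c i j z, ⟨hj, h2⟩, rfl, rfl, h1, rfl, rfl⟩
  · rintro ⟨⟨i', j', k, o⟩, ⟨h1, h2⟩, h3, h4, h5, h6, h7⟩
    simp only at h1 h2 h3 h4 h5 h6 h7
    subst h3 h4
    refine ⟨h5, ?_⟩
    have e : tp τ s c i' j' z = (i', j', k, o) := by
      unfold tp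
      rw [h6, h7]
    rw [e]
    exact h2

end

section

variable {ι : Type} {τ : ℝ} {s c : ι → ℝ} {B : ι → ℕ → Set (ℝ × ℝ)} {u : ℝ × ℝ → ℝ} {A : ℝ}

theorem q_near {τ : ℝ} {i : ℕ} {x y : ℝ} (h : |x - y| ≤ 1 / (8 * 2 ^ i)) :
    q τ i x ∈ Finset.Icc (q τ i y - 1) (q τ i y + 1) := by
  have hp : (0 : ℝ) < 2 ^ i := by positivity
  have h1 : |2 ^ i * (x - τ) - 2 ^ i * (y - τ)| < 1 := by
    have : 2 ^ i * (x - τ) - 2 ^ i * (y - τ) = 2 ^ i * (x - y) := by ring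
    rw [this, abs_mul, abs_of_pos hp]
    have h2 : 2 ^ i * |x - y| ≤ 2 ^ i * (1 / (8 * 2 ^ i)) := by gcongr
    have h3 : (2 : ℝ) ^ i * (1 / (8 * 2 ^ i)) = 1 / 8 := by field_simp
    linarith
  unfold q
  have a1 := Int.floor_le (2 ^ i * (x - τ))
  have a2 := Int.lt_floor_add_one (2 ^ i * (x - τ))
  have b1 := Int.floor_le (2 ^ i * (y - τ))
  have b2 := Int.lt_floor_add_one (2 ^ i * (y - τ))
  rw [abs_lt] at h1
  have c1 : (⌊2 ^ i * (x - τ)⌋ : ℝ) < ⌊2 ^ i * (y - τ)⌋ + 2 := by linarith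
  have c2 : (⌊2 ^ i * (y - τ)⌋ : ℝ) < ⌊2 ^ i * (x - τ)⌋ + 2 := by linarith
  have d1 : ⌊2 ^ i * (x - τ)⌋ < ⌊2 ^ i * (y - τ)⌋ + 2 := by exact_mod_cast c1
  have d2 : ⌊2 ^ i * (y - τ)⌋ < ⌊2 ^ i * (x - τ)⌋ + 2 := by exact_mod_cast c2
  rw [Finset.mem_Icc]
  constructor <;> omega

/-- The offset of a pair seen from `ζ`. -/
theorem over_oc {j : ℕ} {z ζ : ℝ × ℝ} (ho : Over u j z ζ) {i : ι} (hs : |u z - s i| ≤ A * 2 ^ j) :
    |(z.2 - c i - s i * z.1) - (ζ.2 - c i - s i * ζ.1)| ≤ 1 + A / 8 := by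
  have e : (z.2 - c i - s i * z.1) - (ζ.2 - c i - s i * ζ.1) =
      -(ζ.2 - z.2 - (ζ.1 - z.1) * u z) - (ζ.1 - z.1) * (u z - s i) := by ring
  have h1 : |(ζ.1 - z.1) * (u z - s i)| ≤ A / 8 := by
    rw [abs_mul, abs_sub_comm ζ.1]
    calc |z.1 - ζ.1| * |u z - s i| ≤ 1 / (8 * 2 ^ j) * (A * 2 ^ j) := by
          gcongr
          exact ho.1
      _ = A / 8 := by field_simp
  rw [e]
  have t := abs_sub (-(ζ.2 - z.2 - (ζ.1 - z.1) * u z)) ((ζ.1 - z.1) * (u z - s i))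
  rw [abs_neg] at t
  linarith [ho.2]

/-- **Own density of the low part, seen from any point `ζ`.** -/
theorem own_low (hA : 0 ≤ A) (hs : ∀ i j, ∀ z ∈ B i j, |u z - s i| ≤ A * 2 ^ j) {κ : ℝ}
    (hκ : 0 ≤ κ) (i : ι) (j : ℕ) (ζ : ℝ × ℝ) :
    volume {z | z ∈ LowP τ s c B κ i j ∧ Over u j z ζ} ≤
      ENNReal.ofReal ((A + 12) * κ / 2 ^ j) := by
  classical
  set O : ℝ := ζ.2 - c i - s i * ζ.1 with hO
  set K : Finset ℤ := Finset.Icc (q τ j ζ.1 - 1) (q τ j ζ.1 + 1) with hK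
  set L : Finset ℤ := Finset.Icc ⌊O - (1 + A / 8)⌋ ⌊O + (1 + A / 8)⌋ with hL
  let D : ℤ × ℤ → Set (ℝ × ℝ) := fun r =>
    if volume (tl τ s c B (i, j, r)) < ENNReal.ofReal (κ / 2 ^ j) then tl τ s c B (i, j, r) else ∅
  have hsub : {z | z ∈ LowP τ s c B κ i j ∧ Over u j z ζ} ⊆ ⋃ r ∈ K ×ˢ L, D r := by
    rintro z ⟨⟨hz, hv⟩, ho⟩
    simp only [mem_iUnion]
    refine ⟨(q τ j z.1, oc s c i z), Finset.mem_product.2 ⟨q_near ho.1, ?_⟩, ?_⟩
    · have h1 := over_oc (c := c) ho (hs i j z hz)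
      rw [abs_le] at h1
      rw [hL, Finset.mem_Icc]
      unfold oc
      constructor
      · apply Int.floor_le_floor
        linarith
      · apply Int.floor_le_floor
        linarith
    · show z ∈ D (q τ j z.1, oc s c i z)
      have : D (q τ j z.1, oc s c i z) = tl τ s c B (i, j, q τ j z.1, oc s c i z) :=
        if_pos hv
      rw [this]
      exact ⟨hz, rfl, rfl⟩
  have hD : ∀ r, volume (D r) ≤ ENNReal.ofReal (κ / 2 ^ j) := by
    intro r
    by_cases h : volume (tl τ s c B (i, j, r)) < ENNReal.ofReal (κ / 2 ^ j)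
    · have : D r = tl τ s c B (i, j, r) := if_pos h
      rw [this]; exact h.le
    · have : D r = ∅ := if_neg h
      rw [this]; simp
  have hKc : K.card = 3 := by
    rw [hK, Int.card_Icc]
    omega
  have hLc : (L.card : ℝ) ≤ A / 4 + 4 := by
    rw [hL, Int.card_Icc]
    have a1 : (⌊O + (1 + A / 8)⌋ : ℝ) ≤ O + (1 + A / 8) := Int.floor_le _
    have a2 : O - (1 + A / 8) < ⌊O - (1 + A / 8)⌋ + 1 := Int.lt_floor_add_one _
    have a3 : ⌊O - (1 + A / 8)⌋ ≤ ⌊O + (1 + A / 8)⌋ := Int.floor_le_floor (by linarith)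
    have a4 : (((⌊O + (1 + A / 8)⌋ + 1 - ⌊O - (1 + A / 8)⌋).toNat : ℤ) : ℝ) =
        ((⌊O + (1 + A / 8)⌋ + 1 - ⌊O - (1 + A / 8)⌋ : ℤ) : ℝ) := by
      rw [Int.toNat_of_nonneg (by omega)]
    have a5 : (((⌊O + (1 + A / 8)⌋ + 1 - ⌊O - (1 + A / 8)⌋).toNat : ℕ) : ℝ) =
        (((⌊O + (1 + A / 8)⌋ + 1 - ⌊O - (1 + A / 8)⌋).toNat : ℤ) : ℝ) := by push_cast; rfl
    rw [a5, a4]
    push_cast
    linarith
  calc volume {z | z ∈ LowP τ s c B κ i j ∧ Over u j z ζ} ≤ volume (⋃ r ∈ K ×ˢ L, D r) :=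
        measure_mono hsub
    _ ≤ ∑ r ∈ K ×ˢ L, volume (D r) := measure_biUnion_finset_le _ _
    _ ≤ ∑ _r ∈ K ×ˢ L, ENNReal.ofReal (κ / 2 ^ j) := Finset.sum_le_sum fun r _ => hD r
    _ = ENNReal.ofReal ((K.card * L.card : ℕ) * (κ / 2 ^ j)) := by
        rw [Finset.sum_const, Finset.card_product, nsmul_eq_mul, ENNReal.ofReal_mul (by positivity),
          ENNReal.ofReal_natCast]
    _ ≤ ENNReal.ofReal ((A + 12) * κ / 2 ^ j) := by
        apply ENNReal.ofReal_le_ofReal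
        rw [hKc]
        push_cast
        have h1 : (3 : ℝ) * L.card ≤ A + 12 := by linarith
        calc (3 : ℝ) * L.card * (κ / 2 ^ j) ≤ (A + 12) * (κ / 2 ^ j) := by gcongr
          _ = _ := by ring

end

/-! ### decomposition of the tree functions -/

section

variable {M : ℕ} (κ : Ker M) {u : ℝ × ℝ → ℝ} {n : ℕ}

/-- `FS` of a disjoint union. -/
theorem FS_union (hu : Field u) {g : ℝ × ℝ → ℝ} (hg : Nice g) {E E1 E2 : ℕ → Set (ℝ × ℝ)}
    (h1 : ∀ j, MeasurableSet (E1 j)) (h2 : ∀ j, MeasurableSet (E2 j))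
    (hE : ∀ j, E1 j ∪ E2 j = E j) (hd : ∀ j, Disjoint (E1 j) (E2 j)) (ζ : ℝ × ℝ) :
    κ.FS u g E n ζ = κ.FS u g E1 n ζ + κ.FS u g E2 n ζ := by
  unfold Ker.FS
  rw [← Finset.sum_add_distrib]
  refine Finset.sum_congr rfl fun j _ => ?_
  have e : (E j).indicator g = fun z => (E1 j).indicator g z + (E2 j).indicator g z := by
    rw [← hE j, Set.indicator_union_of_disjoint (hd j)]
  rw [e]
  unfold Ker.S
  simp_rw [mul_add]
  exact integral_add (integrable_S_int κ hu j (hg.indicator (h1 j)) ζ)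
    (integrable_S_int κ hu j (hg.indicator (h2 j)) ζ)

/-- The one-tile tree of a set at the scale `j`. -/
def oneT (j : ℕ) (X : Set (ℝ × ℝ)) (j' : ℕ) : Set (ℝ × ℝ) := if j' = j then X else ∅

theorem FS_oneT {g : ℝ × ℝ → ℝ} {j : ℕ} (hj : j < n) (X : Set (ℝ × ℝ)) (ζ : ℝ × ℝ) :
    κ.FS u g (oneT j X) n ζ = κ.S u j (X.indicator g) ζ := by
  unfold Ker.FS
  rw [Finset.sum_eq_single j]
  · simp [oneT]
  · intro j' _ hne
    simp [oneT, hne, Ker.S]
  · intro h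
    exact absurd (Finset.mem_range.2 hj) h

theorem S_finset (hu : Field u) (j : ℕ) {β : Type*} (t : Finset β) {f : β → ℝ × ℝ → ℝ}
    (hf : ∀ r ∈ t, Nice (f r)) (ζ : ℝ × ℝ) :
    κ.S u j (fun z => ∑ r ∈ t, f r z) ζ = ∑ r ∈ t, κ.S u j (f r) ζ := by
  unfold Ker.S
  simp_rw [Finset.mul_sum]
  rw [integral_finsetSum]
  intro r hr
  exact integrable_S_int κ hu j (hf r hr) ζ

variable {ι : Type} {τ : ℝ} {s c : ι → ℝ} {B : ι → ℕ → Set (ℝ × ℝ)}

open Classical in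
/-- `FS` of the high part of a tree is the sum over its high tiles. -/
theorem FS_hi (hu : Field u) {g : ℝ × ℝ → ℝ} (hg : Nice g) (hB : ∀ i j, MeasurableSet (B i j))
    {κ0 : ℝ} (hf : (HT τ s c B κ0 n).Finite) (i : ι) (ζ : ℝ × ℝ) :
    κ.FS u g (HiP τ s c B κ0 i) n ζ =
      ∑ p ∈ hf.toFinset.filter (fun p => p.1 = i), κ.FS u g (oneT p.2.1 (tl τ s c B p)) n ζ := by
  have h1 : ∀ j ∈ Finset.range n, κ.S u j ((HiP τ s c B κ0 i j).indicator g) ζ =
      ∑ p ∈ hf.toFinset.filter (fun p => p.1 = i),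
        κ.S u j ((oneT p.2.1 (tl τ s c B p) j).indicator g) ζ := by
    intro j hj
    have hj' := Finset.mem_range.1 hj
    have e : (HiP τ s c B κ0 i j).indicator g = fun z =>
        ∑ p ∈ hf.toFinset.filter (fun p => p.1 = i),
          (oneT p.2.1 (tl τ s c B p) j).indicator g z := by
      funext z
      by_cases hz : z ∈ HiP τ s c B κ0 i j
      · rw [indicator_of_mem hz]
        have hm : tp τ s c i j z ∈ hf.toFinset.filter (fun p => p.1 = i) :=
          Finset.mem_filter.2 ⟨hf.mem_toFinset.2 ⟨hj', hz.2⟩, rfl⟩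
        rw [Finset.sum_eq_single (tp τ s c i j z)]
        · rw [indicator_of_mem]
          show z ∈ oneT j (tl τ s c B (tp τ s c i j z)) j
          rw [oneT, if_pos rfl]
          exact ⟨hz.1, rfl, rfl⟩
        · rintro ⟨i', j', k, o⟩ hp hne
          refine indicator_of_notMem (fun h => hne ?_) _
          obtain ⟨_, hp2⟩ := Finset.mem_filter.1 hp
          simp only at hp2
          subst hp2
          by_cases hjj : j = j'
          · subst hjj
            rw [oneT, if_pos rfl] at h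
            obtain ⟨_, h3, h4⟩ := h
            simp only at h3 h4
            unfold tp
            rw [h3, h4]
          · rw [oneT, if_neg hjj] at h
            exact absurd h (Set.notMem_empty _)
        · intro h
          exact absurd hm h
      · rw [indicator_of_notMem hz]
        symm
        refine Finset.sum_eq_zero ?_
        rintro ⟨i', j', k, o⟩ hp
        refine indicator_of_notMem (fun h => hz ?_) _
        obtain ⟨hp1, hp2⟩ := Finset.mem_filter.1 hp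
        by_cases hjj : j = j'
        · subst hjj
          simp only at hp2
          subst hp2
          rw [oneT, if_pos rfl] at h
          exact (hi_eq κ0 i' hj' z).2 ⟨_, hf.mem_toFinset.1 hp1, rfl, rfl, h⟩
        · rw [oneT, if_neg hjj] at h
          exact absurd h (Set.notMem_empty _)
    rw [e]
    refine S_finset κ hu j _ (fun p _ => hg.indicator ?_) ζ
    unfold oneT
    split_ifs
    · exact meas_tl hB p
    · exact MeasurableSet.empty
  unfold Ker.FS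
  rw [Finset.sum_congr rfl h1, Finset.sum_comm]

end

end Vale.Agent.P112.H540
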