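import Vale.Agent.P112.G.R2
import Vale.Agent.P112.H540.Split2

/-!
# P112, chapter (G), route 2: the literal [SPLIT] of `G/R2.lean` (helper540)

`stSplit : R2.StSplit`, and what is needed to use it: `Over` of `R2` against `Over` of `H540`,
the sum of a family as the sum of its good and bad parts, low and high parts (measurability,
`indicator`, sums), finiteness of the set of the high tiles, own density of the low part.
-/

open MeasureTheory Set
open scoped ENNReal

set_option linter.dupNamespace false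

noncomputable section

namespace Vale.Agent.P112.H540

open T

section

variable {F : R2.Tr} (G : R2.Cells F) {u : ℝ × ℝ → ℝ} {P : ℕ → Set (ℝ × ℝ)} {A w H Q : ℝ}

/-- A cell which contains an interval of radius `8 / 2 ^ j` has level `≤ j`. -/
theorem lev_le_of_cell {τ : ℝ} {l j : ℕ} {k : ℤ} {x0 : ℝ}
    (h : ∀ x : ℝ, |x - x0| ≤ 8 / 2 ^ j → q τ l x = k) : l ≤ j := by
  by_contra hlt
  rw [not_le] at hlt
  have h1 : (1 : ℝ) / 2 ^ l ≤ 8 / 2 ^ j := by
    have a1 : (1 : ℝ) / 2 ^ l ≤ 1 / 2 ^ j :=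
      one_div_le_one_div_of_le (by positivity) (pow_le_pow_right₀ (by norm_num) hlt.le)
    have a2 : (1 : ℝ) / 2 ^ j ≤ 8 / 2 ^ j := by gcongr; norm_num
    linarith
  have h2 := h (x0 + 1 / 2 ^ l) (by
    rw [add_sub_cancel_left, abs_of_pos (by positivity)]
    exact h1)
  have h3 := h x0 (by rw [sub_self, abs_zero]; positivity)
  have h4 : q τ l (x0 + 1 / 2 ^ l) = q τ l x0 + 1 := by
    unfold q
    rw [← Int.floor_add_one]
    congr 1
    have : (2 : ℝ) ^ l ≠ 0 := by positivity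
    field_simp
    ring
  omega

theorem wit_mono (hQ : 0 ≤ Q) {i i' : F.ι} {j k : ℕ} (hjk : j ≤ k) {z : ℝ × ℝ}
    (hw : G.Wit Q H i j z i') : G.Wit Q H i k z i' := by
  obtain ⟨h1, h2, h3, h4⟩ := hw
  have h5 : (2 : ℝ) ^ j ≤ 2 ^ k := pow_le_pow_right₀ (by norm_num) hjk
  refine ⟨h1, fun x hx => h2 x (hx.trans ?_), h3, lt_of_lt_of_le h4 ?_⟩
  · gcongr
  · gcongr

theorem meas_wit (Q H : ℝ) (i : F.ι) (j : ℕ) (i' : F.ι) :
    MeasurableSet {z | G.Wit Q H i j z i'} := by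
  have hq : Measurable fun x : ℝ => q G.τ (G.lev i') x := by
    unfold q
    exact Int.measurable_floor.comp (measurable_const.mul (measurable_id.sub_const G.τ))
  have h0 : (0 : ℝ) ≤ 8 / 2 ^ j := by positivity
  have e : {z : ℝ × ℝ | G.Wit Q H i j z i'} =
      {_z : ℝ × ℝ | i' ≠ i ∧ |F.s i - F.s i'| < Q * 2 ^ j} ∩
      (({z | q G.τ (G.lev i') (z.1 - 8 / 2 ^ j) = G.m i'} ∩
        {z | q G.τ (G.lev i') (z.1 + 8 / 2 ^ j) = G.m i'}) ∩ {z | |F.off i' z| ≤ 2 * H}) := by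
    ext z
    simp only [R2.Cells.Wit, mem_ofPred_eq, mem_inter_iff]
    rw [inside_iff G.τ h0]
    tauto
  have h2 : Measurable fun z : ℝ × ℝ => |F.off i' z| := by
    unfold R2.Tr.off
    fun_prop
  rw [e]
  refine MeasurableSet.inter (MeasurableSet.const _) (MeasurableSet.inter (MeasurableSet.inter ?_ ?_)
    (measurableSet_le h2 measurable_const))
  · exact (hq.comp (measurable_fst.sub_const _)) (MeasurableSet.of_discrete (s := {G.m i'}))
  · exact (hq.comp (measurable_fst.add_const _)) (MeasurableSet.of_discrete (s := {G.m i'}))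

theorem meas_exwit (Q H : ℝ) (i : F.ι) (j : ℕ) :
    MeasurableSet {z | ∃ i', G.Wit Q H i j z i'} := by
  have e : {z : ℝ × ℝ | ∃ i', G.Wit Q H i j z i'} = ⋃ i', {z | G.Wit Q H i j z i'} := by
    ext z
    simp
  rw [e]
  exact MeasurableSet.iUnion fun i' => meas_wit G Q H i j i'

theorem good_ok (hQ : 0 ≤ Q) (hF : F.Ok u P A w) : (G.good Q H).Ok u P A w where
  meas := fun i j => by
    have e : (G.good Q H).E i j = F.E i j \ {z | ∃ i', G.Wit Q H i j z i'} := by
      ext z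
      show (z ∈ F.E i j ∧ ∀ i', ¬ G.Wit Q H i j z i') ↔ _
      simp
    rw [e]
    exact (hF.meas i j).diff (meas_exwit G Q H i j)
  sub := fun i j z hz => hF.sub i j hz.1
  slope := fun i j z hz => hF.slope i j z hz.1
  line := fun i j z hz => hF.line i j z hz.1
  conv := fun i z j k l h1 h2 h3 h4 =>
    ⟨hF.conv i z j k l h1 h2 h3.1 h4.1, fun i' hw => h4.2 i' (wit_mono G hQ h2 hw)⟩
  uniq := fun i i' j j' z h1 h2 => hF.uniq i i' j j' z h1.1 h2.1

theorem bad_ok (hQ : 0 ≤ Q) (hF : F.Ok u P A w) : (G.bad Q H).Ok u P A w where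
  meas := fun i j => by
    have e : (G.bad Q H).E i j = F.E i j ∩ {z | ∃ i', G.Wit Q H i j z i'} := rfl
    rw [e]
    exact (hF.meas i j).inter (meas_exwit G Q H i j)
  sub := fun i j z hz => hF.sub i j hz.1
  slope := fun i j z hz => hF.slope i j z hz.1
  line := fun i j z hz => hF.line i j z hz.1
  conv := fun i z j k l h1 h2 h3 h4 => by
    obtain ⟨i', hw⟩ := h3.2
    exact ⟨hF.conv i z j k l h1 h2 h3.1 h4.1, i', wit_mono G hQ h1 hw⟩
  uniq := fun i i' j j' z h1 h2 => hF.uniq i i' j j' z h1.1 h2.1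

theorem good_sepP (hM : G.Marg) : (G.good Q H).SepP Q (2 * H) := by
  intro i i' j j' hne hjj z hz z' hz' hx ho
  by_contra hlt
  rw [not_le] at hlt
  refine hz.2 i' ⟨Ne.symm hne, fun x hx' => ?_, ho, hlt⟩
  refine hM i' j' z' hz'.1 x ?_
  have h1 : (8 : ℝ) / 2 ^ j ≤ 8 / 2 ^ j' := by
    have : (2 : ℝ) ^ j' ≤ 2 ^ j := pow_le_pow_right₀ (by norm_num) hjj
    gcongr
  have h2 : |x - z'.1| ≤ |x - z.1| + |z.1 - z'.1| := by
    have e : x - z'.1 = (x - z.1) + (z.1 - z'.1) := by ring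
    rw [e]
    exact abs_add_le _ _
  have h3 : (8 : ℝ) / 2 ^ j' + 4 / 2 ^ j' ≤ 16 / 2 ^ j' := by
    rw [← add_div]
    gcongr
    norm_num
  linarith

theorem good_add_bad (Q H : ℝ) (i : F.ι) (j : ℕ) (z : ℝ × ℝ) :
    (F.E i j).indicator (1 : ℝ × ℝ → ℝ) z =
      ((G.good Q H).E i j).indicator (1 : ℝ × ℝ → ℝ) z +
      ((G.bad Q H).E i j).indicator (1 : ℝ × ℝ → ℝ) z := by
  classical
  by_cases hz : z ∈ F.E i j
  · by_cases hb : ∃ i', G.Wit Q H i j z i'
    · have h1 : z ∈ (G.bad Q H).E i j := ⟨hz, hb⟩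
      have h2 : z ∉ (G.good Q H).E i j := fun h' => hb.elim fun i' hw => h'.2 i' hw
      rw [indicator_of_mem hz, indicator_of_mem h1, indicator_of_notMem h2, zero_add]
    · have h1 : z ∉ (G.bad Q H).E i j := fun h' => hb h'.2
      have h2 : z ∈ (G.good Q H).E i j := ⟨hz, fun i' hw => hb ⟨i', hw⟩⟩
      rw [indicator_of_mem hz, indicator_of_notMem h1, indicator_of_mem h2, add_zero]
  · have h1 : z ∉ (G.bad Q H).E i j := fun h' => hz h'.1
    have h2 : z ∉ (G.good Q H).E i j := fun h' => hz h'.1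
    rw [indicator_of_notMem hz, indicator_of_notMem h1, indicator_of_notMem h2, add_zero]

/-- Two points near in `x` on one tree: offset to another line. -/
theorem off_off {i i' : F.ι} {z z' : ℝ × ℝ} {a d : ℝ} (h1 : |F.off i z| ≤ w)
    (h2 : |F.off i z'| ≤ w) (h3 : |F.s i - F.s i'| ≤ a) (h4 : |z.1 - z'.1| ≤ d) (ha : 0 ≤ a) :
    |F.off i' z| ≤ |F.off i' z'| + 2 * w + a * d := by
  have e : F.off i' z = F.off i' z' + F.off i z - F.off i z' +
      (F.s i - F.s i') * (z.1 - z'.1) := by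
    unfold R2.Tr.off
    ring
  have h5 : |(F.s i - F.s i') * (z.1 - z'.1)| ≤ a * d := by
    rw [abs_mul]
    exact mul_le_mul h3 h4 (abs_nonneg _) ha
  rw [e]
  have t1 := abs_add_le (F.off i' z' + F.off i z - F.off i z') ((F.s i - F.s i') * (z.1 - z'.1))
  have t2 := abs_sub (F.off i' z' + F.off i z) (F.off i z')
  have t3 := abs_add_le (F.off i' z') (F.off i z)
  linarith

theorem bad_window {D : ℝ} (hQ : 0 ≤ Q) (hF : F.Ok u P A w)
    (hS : G.Sep0 u A D) (hD : 2 * H + 2 * w + 8 * Q ≤ D) {i : F.ι} {j j' : ℕ} {z z' : ℝ × ℝ}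
    (hz : z ∈ F.E i j) (hz' : z' ∈ (G.bad Q H).E i j') (hjj : j' ≤ j)
    (hx : |z.1 - z'.1| ≤ 8 / 2 ^ j') : 59 * A * 2 ^ j ≤ Q * 2 ^ j' := by
  obtain ⟨hzE', i', hw⟩ := hz'
  obtain ⟨h1, h2, h3, h4⟩ := hw
  have hp : (0 : ℝ) < 2 ^ j' := by positivity
  have hlev : G.lev i' ≤ j' := lev_le_of_cell h2
  have h5 : q G.τ (G.lev i') z.1 = G.m i' := h2 _ hx
  have h6 : |F.off i' z| ≤ D := by
    have t := off_off (i' := i') (hF.line i j z hz) (hF.line i j' z' hzE') h4.le hx (by positivity)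
    have e : Q * 2 ^ j' * (8 / 2 ^ j') = 8 * Q := by field_simp
    rw [e] at t
    linarith
  have h7 := hS i i' j (Ne.symm h1) (hlev.trans hjj) z hz h5 h6
  have h8 := hF.slope i j z hz
  have h9 : |u z - F.s i'| ≤ |u z - F.s i| + |F.s i - F.s i'| := by
    have e : u z - F.s i' = (u z - F.s i) + (F.s i - F.s i') := by ring
    rw [e]
    exact abs_add_le _ _
  linarith

/-- **[SPLIT]**, the literal statement. -/
theorem stSplit : R2.StSplit := by
  intro u _ P F G A H Q hA hAQ hQH hF hM hS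
  have hQ : 0 ≤ Q := by linarith
  refine ⟨good_ok G hQ hF, good_sepP G hM, bad_ok G hQ hF, good_add_bad G Q H, ?_⟩
  intro i j j' z z' hz hz' hjj hx
  have h0 : (4 : ℝ) / 2 ^ j' ≤ 8 / 2 ^ j' := by
    gcongr
    norm_num
  have h1 := bad_window G hQ hF hS (by linarith) hz.1 hz' hjj (hx.trans h0)
  have h2 : (2 : ℝ) ^ j ≤ 59 * A * 2 ^ j := by
    have : (0 : ℝ) < 2 ^ j := by positivity
    nlinarith
  linarith

end

end Vale.Agent.P112.H540
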