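import Vale.Agent.P112.H371.Win

/-!
# P112, chapter (G), block (u2)(e): the low bands (helper540)

If `G (x, ·)` is the derivative of `G1 (x, ·)`, then the windows of `G` of frequency at most `k0`
are small: `∫ ∑_{|η_b| ≤ k0} |G_b|² ≤ (8 k0 / H + 8 / H² + 2 k0²) ∫ |G1|²`.
-/

open MeasureTheory Set
open scoped ENNReal Real

noncomputable section

namespace Vale.Agent.P112.H540

open H371 (eb Gb Wa)

/-- integration by parts in a window (the frequencies `eb H b` are the ones of the window) -/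
theorem Gb_deriv {H : ℝ} (hH : 0 < H) (b : ℤ) {G G1 : ℝ × ℝ → ℂ} (z : ℝ × ℝ)
    (hd : ∀ t ∈ Icc z.2 (z.2 + H), HasDerivAt (fun t => G1 (z.1, t)) (G (z.1, t)) t)
    (hi : IntegrableOn (fun t => G (z.1, t)) (Ioc z.2 (z.2 + H))) :
    Gb H b G z = ((1 / H : ℝ) : ℂ) * (Complex.exp (-(Complex.I * (eb H b * z.2 : ℝ))) *
      (G1 (z.1, z.2 + H) - G1 (z.1, z.2))) + Complex.I * (eb H b : ℂ) * Gb H b G1 z := by
  have hle : z.2 ≤ z.2 + H := by linarith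
  have hu : ∀ t : ℝ, HasDerivAt (fun t : ℝ => Complex.exp (-(Complex.I * (eb H b * t : ℝ))))
      (Complex.exp (-(Complex.I * (eb H b * t : ℝ))) * (-(Complex.I * (eb H b : ℂ)))) t := by
    intro t
    have h1 : HasDerivAt (fun t : ℝ => ((eb H b * t : ℝ) : ℂ)) ((eb H b * 1 : ℝ) : ℂ) t :=
      ((hasDerivAt_id t).const_mul (eb H b)).ofReal_comp
    have h2 : HasDerivAt (fun t : ℝ => -(Complex.I * ((eb H b * t : ℝ) : ℂ)))
        (-(Complex.I * ((eb H b * 1 : ℝ) : ℂ))) t := (h1.const_mul Complex.I).neg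
    rw [mul_one] at h2
    exact h2.cexp
  have key := intervalIntegral.integral_mul_deriv_eq_deriv_mul (a := z.2) (b := z.2 + H)
    (u := fun t : ℝ => Complex.exp (-(Complex.I * (eb H b * t : ℝ))))
    (v := fun t => G1 (z.1, t))
    (u' := fun t : ℝ => Complex.exp (-(Complex.I * (eb H b * t : ℝ))) *
      (-(Complex.I * (eb H b : ℂ)))) (v' := fun t => G (z.1, t))
    (fun t _ => hu t) (fun t ht => hd t (by rwa [uIcc_of_le hle] at ht))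
    (Continuous.intervalIntegrable (by fun_prop) _ _)
    ((intervalIntegrable_iff_integrableOn_Ioc_of_le hle).2 hi)
  have hper : Complex.exp (-(Complex.I * (eb H b * (z.2 + H) : ℝ))) =
      Complex.exp (-(Complex.I * (eb H b * z.2 : ℝ))) := by
    have e : -(Complex.I * ((eb H b * (z.2 + H) : ℝ) : ℂ)) =
        -(Complex.I * ((eb H b * z.2 : ℝ) : ℂ)) + ((-b : ℤ) : ℂ) * (2 * π * Complex.I) := by
      have hH' : (H : ℂ) ≠ 0 := by exact_mod_cast hH.ne'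
      unfold eb
      push_cast
      field_simp
      ring
    rw [e, Complex.exp_add, Complex.exp_int_mul_two_pi_mul_I, mul_one]
  have h3 : (∫ t in z.2..(z.2 + H), Complex.exp (-(Complex.I * (eb H b * t : ℝ))) *
      (-(Complex.I * (eb H b : ℂ))) * G1 (z.1, t)) =
      (-(Complex.I * (eb H b : ℂ))) *
        ∫ t in z.2..(z.2 + H), Complex.exp (-(Complex.I * (eb H b * t : ℝ))) * G1 (z.1, t) := by
    rw [← intervalIntegral.integral_const_mul]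
    refine intervalIntegral.integral_congr fun t _ => ?_
    ring
  unfold Gb
  rw [key, h3, hper]
  ring

theorem norm_sq_add_le (a b : ℂ) : ‖a + b‖ₑ ^ 2 ≤ 2 * ‖a‖ₑ ^ 2 + 2 * ‖b‖ₑ ^ 2 := by
  have h : ‖a + b‖ ^ 2 ≤ 2 * ‖a‖ ^ 2 + 2 * ‖b‖ ^ 2 := by
    have := norm_add_le a b
    nlinarith [norm_nonneg (a + b), norm_nonneg a, norm_nonneg b, sq_nonneg (‖a‖ - ‖b‖)]
  calc ‖a + b‖ₑ ^ 2 = ENNReal.ofReal (‖a + b‖ ^ 2) := by
        rw [ENNReal.ofReal_pow (norm_nonneg _), ofReal_norm]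
    _ ≤ ENNReal.ofReal (2 * ‖a‖ ^ 2 + 2 * ‖b‖ ^ 2) := ENNReal.ofReal_le_ofReal h
    _ = 2 * ‖a‖ₑ ^ 2 + 2 * ‖b‖ₑ ^ 2 := by
        rw [ENNReal.ofReal_add (by positivity) (by positivity), ENNReal.ofReal_mul (by norm_num),
          ENNReal.ofReal_mul (by norm_num), ENNReal.ofReal_pow (norm_nonneg _),
          ENNReal.ofReal_pow (norm_nonneg _), ofReal_norm, ofReal_norm]
        norm_num

theorem norm_sq_sub_le (a b : ℂ) : ‖a - b‖ₑ ^ 2 ≤ 2 * ‖a‖ₑ ^ 2 + 2 * ‖b‖ₑ ^ 2 := by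
  have := norm_sq_add_le a (-b)
  simpa [sub_eq_add_neg] using this

/-- one band -/
theorem Gb_deriv_le {H : ℝ} (hH : 0 < H) (b : ℤ) {G G1 : ℝ × ℝ → ℂ} (z : ℝ × ℝ)
    (hd : ∀ t ∈ Icc z.2 (z.2 + H), HasDerivAt (fun t => G1 (z.1, t)) (G (z.1, t)) t)
    (hi : IntegrableOn (fun t => G (z.1, t)) (Ioc z.2 (z.2 + H))) :
    ‖Gb H b G z‖ₑ ^ 2 ≤ ENNReal.ofReal (2 / H ^ 2) * ‖G1 (z.1, z.2 + H) - G1 (z.1, z.2)‖ₑ ^ 2 +
      ENNReal.ofReal (2 * (eb H b) ^ 2) * ‖Gb H b G1 z‖ₑ ^ 2 := by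
  rw [Gb_deriv hH b z hd hi]
  refine (norm_sq_add_le _ _).trans (le_of_eq ?_)
  have e1 : ‖((1 / H : ℝ) : ℂ) * (Complex.exp (-(Complex.I * (eb H b * z.2 : ℝ))) *
      (G1 (z.1, z.2 + H) - G1 (z.1, z.2)))‖ₑ =
      ENNReal.ofReal (1 / H) * ‖G1 (z.1, z.2 + H) - G1 (z.1, z.2)‖ₑ := by
    rw [enorm_mul, enorm_mul]
    have a1 : ‖((1 / H : ℝ) : ℂ)‖ₑ = ENNReal.ofReal (1 / H) := by
      rw [← ofReal_norm, Complex.norm_real, Real.norm_of_nonneg (by positivity)]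
    have a2 : ‖Complex.exp (-(Complex.I * ((eb H b * z.2 : ℝ) : ℂ)))‖ₑ = 1 := by
      rw [← ofReal_norm, Complex.norm_exp]
      simp
    rw [a1, a2, one_mul]
  have e2 : ‖Complex.I * (eb H b : ℂ) * Gb H b G1 z‖ₑ = ENNReal.ofReal |eb H b| * ‖Gb H b G1 z‖ₑ := by
    rw [enorm_mul, enorm_mul]
    have a1 : ‖(Complex.I : ℂ)‖ₑ = 1 := by rw [← ofReal_norm, Complex.norm_I, ENNReal.ofReal_one]
    have a2 : ‖((eb H b : ℝ) : ℂ)‖ₑ = ENNReal.ofReal |eb H b| := by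
      rw [← ofReal_norm, Complex.norm_real, Real.norm_eq_abs]
    rw [a1, a2, one_mul]
  rw [e1, e2, mul_pow, mul_pow, ← mul_assoc, ← mul_assoc, ← ENNReal.ofReal_pow (by positivity),
    ← ENNReal.ofReal_pow (abs_nonneg _), sq_abs]
  have h2 : (2 : ℝ≥0∞) = ENNReal.ofReal 2 := by norm_num
  rw [h2, ← ENNReal.ofReal_mul (by norm_num), ← ENNReal.ofReal_mul (by norm_num)]
  congr 3
  ring

/-- the low bands -/
def low (H k0 : ℝ) : Finset ℤ := Finset.Icc (-⌊k0 * H / (2 * π)⌋) ⌊k0 * H / (2 * π)⌋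

theorem mem_low {H k0 : ℝ} (hH : 0 < H) {b : ℤ} : b ∈ low H k0 ↔ |eb H b| ≤ k0 := by
  have e : |eb H b| ≤ k0 ↔ |(b : ℝ)| ≤ k0 * H / (2 * π) := by
    unfold eb
    rw [abs_div, abs_mul, abs_of_pos Real.two_pi_pos, abs_of_pos hH, div_le_iff₀ hH,
      le_div_iff₀ Real.two_pi_pos, mul_comm (2 * π)]
  rw [e, abs_le, low, Finset.mem_Icc, Int.le_floor]
  constructor
  · rintro ⟨h1, h2⟩
    refine ⟨?_, h2⟩
    have : ((-b : ℤ) : ℝ) ≤ k0 * H / (2 * π) := Int.le_floor.1 (by omega)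
    push_cast at this
    linarith
  · rintro ⟨h1, h2⟩
    refine ⟨?_, h2⟩
    have : -b ≤ ⌊k0 * H / (2 * π)⌋ := Int.le_floor.2 (by push_cast; linarith)
    omega

theorem card_low_le {H k0 : ℝ} (hH : 0 < H) (hk : 0 ≤ k0) : ((low H k0).card : ℝ) ≤ k0 * H + 1 := by
  have h0 : 0 ≤ k0 * H / (2 * π) := by positivity
  have h1 : 0 ≤ ⌊k0 * H / (2 * π)⌋ := Int.floor_nonneg.2 h0
  have h2 : ((low H k0).card : ℝ) = 2 * (⌊k0 * H / (2 * π)⌋ : ℝ) + 1 := by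
    rw [low, Int.card_Icc]
    have : (⌊k0 * H / (2 * π)⌋ + 1 - -⌊k0 * H / (2 * π)⌋).toNat =
        (2 * ⌊k0 * H / (2 * π)⌋ + 1 : ℤ) := by omega
    have h3 : (((⌊k0 * H / (2 * π)⌋ + 1 - -⌊k0 * H / (2 * π)⌋).toNat : ℤ) : ℝ) =
        ((2 * ⌊k0 * H / (2 * π)⌋ + 1 : ℤ) : ℝ) := by rw [this]
    push_cast at h3
    exact h3
  rw [h2]
  have h4 : (⌊k0 * H / (2 * π)⌋ : ℝ) ≤ k0 * H / (2 * π) := Int.floor_le _
  have h5 : k0 * H / (2 * π) ≤ k0 * H / 2 := by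
    apply div_le_div_of_nonneg_left (by positivity) (by norm_num)
    nlinarith [Real.pi_gt_three]
  linarith

/-- **The low bands, pointwise** (a finite set `B` of bands of frequency at most `k0`). -/
theorem low_pt {H k0 : ℝ} (hH : 0 < H) {G G1 : ℝ × ℝ → ℂ} (hG1 : Measurable G1) {C : ℝ}
    (hb : ∀ z, ‖G1 z‖ ≤ C) (B : Finset ℤ) (hB : ∀ b ∈ B, |eb H b| ≤ k0) (z : ℝ × ℝ)
    (hd : ∀ t ∈ Icc z.2 (z.2 + H), HasDerivAt (fun t => G1 (z.1, t)) (G (z.1, t)) t)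
    (hi : IntegrableOn (fun t => G (z.1, t)) (Ioc z.2 (z.2 + H))) :
    ∑ b ∈ B, ‖Gb H b G z‖ₑ ^ 2 ≤
      ENNReal.ofReal (2 * B.card / H ^ 2) * ‖G1 (z.1, z.2 + H) - G1 (z.1, z.2)‖ₑ ^ 2 +
      ENNReal.ofReal (2 * k0 ^ 2) * Wa H (fun z => ‖G1 z‖ₑ ^ 2) z := by
  calc ∑ b ∈ B, ‖Gb H b G z‖ₑ ^ 2
      ≤ ∑ b ∈ B, (ENNReal.ofReal (2 / H ^ 2) * ‖G1 (z.1, z.2 + H) - G1 (z.1, z.2)‖ₑ ^ 2 +
        ENNReal.ofReal (2 * k0 ^ 2) * ‖Gb H b G1 z‖ₑ ^ 2) := by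
        refine Finset.sum_le_sum fun b hb' => (Gb_deriv_le hH b z hd hi).trans ?_
        gcongr 2
        refine ENNReal.ofReal_le_ofReal ?_
        have := hB b hb'
        have h2 : (eb H b) ^ 2 ≤ k0 ^ 2 := by
          rw [← sq_abs]
          exact pow_le_pow_left₀ (abs_nonneg _) this 2
        linarith
    _ = ENNReal.ofReal (2 * B.card / H ^ 2) * ‖G1 (z.1, z.2 + H) - G1 (z.1, z.2)‖ₑ ^ 2 +
        ENNReal.ofReal (2 * k0 ^ 2) * ∑ b ∈ B, ‖Gb H b G1 z‖ₑ ^ 2 := by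
        rw [Finset.sum_add_distrib, Finset.sum_const, nsmul_eq_mul, ← Finset.mul_sum, ← mul_assoc]
        congr 2
        rw [← ENNReal.ofReal_natCast, ← ENNReal.ofReal_mul (by positivity)]
        congr 1
        ring
    _ ≤ _ := by
        gcongr
        refine (ENNReal.sum_le_tsum B).trans_eq ?_
        exact H371.tsum_Gb_bdd hH hG1 hb z

/-- **(u2)(e) LOW BANDS.** -/
theorem low_bands {H k0 : ℝ} (hH : 0 < H) (hk : 0 ≤ k0) {G G1 : ℝ × ℝ → ℂ} (hG1 : Measurable G1)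
    {C : ℝ} (hb : ∀ z, ‖G1 z‖ ≤ C) (B : Finset ℤ) (hB : ∀ b ∈ B, |eb H b| ≤ k0)
    (hd : ∀ x t, HasDerivAt (fun t => G1 (x, t)) (G (x, t)) t)
    (hi : ∀ z : ℝ × ℝ, IntegrableOn (fun t => G (z.1, t)) (Ioc z.2 (z.2 + H))) :
    ∫⁻ z, ∑ b ∈ B, ‖Gb H b G z‖ₑ ^ 2 ≤
      ENNReal.ofReal (8 * k0 / H + 8 / H ^ 2 + 2 * k0 ^ 2) * ∫⁻ z, ‖G1 z‖ₑ ^ 2 := by
  have hBc : (B.card : ℝ) ≤ k0 * H + 1 := by
    refine le_trans ?_ (card_low_le hH hk)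
    exact_mod_cast Finset.card_le_card fun b hb => (mem_low hH).2 (hB b hb)
  have hm : Measurable fun z => ‖G1 z‖ₑ ^ 2 := hG1.enorm.pow_const 2
  have hm2 : Measurable fun z : ℝ × ℝ => ‖G1 (z.1, z.2 + H)‖ₑ ^ 2 :=
    hm.comp (measurable_fst.prodMk (measurable_snd.add_const H))
  calc ∫⁻ z, ∑ b ∈ B, ‖Gb H b G z‖ₑ ^ 2
      ≤ ∫⁻ z, (ENNReal.ofReal (2 * B.card / H ^ 2) *
          (2 * ‖G1 (z.1, z.2 + H)‖ₑ ^ 2 + 2 * ‖G1 z‖ₑ ^ 2) +
          ENNReal.ofReal (2 * k0 ^ 2) * Wa H (fun z => ‖G1 z‖ₑ ^ 2) z) := by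
        refine lintegral_mono fun z => ?_
        refine (low_pt hH hG1 hb B hB z (fun t _ => hd _ t) (hi z)).trans ?_
        gcongr
        exact norm_sq_sub_le _ _
    _ = ENNReal.ofReal (2 * B.card / H ^ 2) * (2 * (∫⁻ z : ℝ × ℝ, ‖G1 (z.1, z.2 + H)‖ₑ ^ 2) +
          2 * ∫⁻ z, ‖G1 z‖ₑ ^ 2) +
          ENNReal.ofReal (2 * k0 ^ 2) * ∫⁻ z, Wa H (fun z => ‖G1 z‖ₑ ^ 2) z := by
        have hm3 : Measurable fun z : ℝ × ℝ => 2 * ‖G1 (z.1, z.2 + H)‖ₑ ^ 2 + 2 * ‖G1 z‖ₑ ^ 2 :=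
          (hm2.const_mul 2).add (hm.const_mul 2)
        rw [lintegral_add_right _ ((H371.Wa_meas hm).const_mul _),
          lintegral_const_mul _ hm3,
          lintegral_add_left (hm2.const_mul 2), lintegral_const_mul _ hm2, lintegral_const_mul _ hm,
          lintegral_const_mul _ (H371.Wa_meas hm)]
    _ = (ENNReal.ofReal (2 * B.card / H ^ 2) * 4 + ENNReal.ofReal (2 * k0 ^ 2)) *
          ∫⁻ z, ‖G1 z‖ₑ ^ 2 := by
        rw [H371.lint_Wa_all hH hm, H371.lint_shift (fun z => ‖G1 z‖ₑ ^ 2) H, add_mul, ← add_mul,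
          mul_assoc]
        norm_num
    _ ≤ _ := by
        gcongr
        have h4 : (4 : ℝ≥0∞) = ENNReal.ofReal 4 := by norm_num
        rw [h4, ← ENNReal.ofReal_mul (by positivity), ← ENNReal.ofReal_add (by positivity)
          (by positivity)]
        refine ENNReal.ofReal_le_ofReal ?_
        have : 2 * (B.card : ℝ) / H ^ 2 * 4 ≤ 8 * k0 / H + 8 / H ^ 2 := by
          calc 2 * (B.card : ℝ) / H ^ 2 * 4 ≤ 2 * (k0 * H + 1) / H ^ 2 * 4 := by gcongr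
            _ = _ := by field_simp; ring
        linarith

end Vale.Agent.P112.H540
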