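import Vale.Agent.P112.T.Defs

/-!
# P112, chapter (G), block [SPLIT]: good and bad pairs of one `SEP0` family (helper540)

Trees `i : ι` with slope `s i`, line `y = c i + s i x`, level `lev i`, cell `m i` of the grid `τ`.
`GdP`: pairs whose distance to every other top passing near them is at least `Q 2 ^ j`;
`BdP`: the others; seen from one point `ζ` the bad pairs of one tree live on few scales.
A top `i'` is a witness for the pair `(z, j)` only if `[z.1 - 2 / 2 ^ j, z.1 + 2 / 2 ^ j]` lies in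
its cell (so it is longer than the pair), form of helper870.
-/

open MeasureTheory Set
open scoped ENNReal

set_option linter.dupNamespace false

namespace Vale.Agent.P112.H540

open T

/-- The interval of radius `r` around `z.1` lies in the cell of the top `i`, and the distance of
`z` to its line is at most `T0`. -/
def nearT {ι : Type} (τ : ℝ) (s c : ι → ℝ) (lev : ι → ℕ) (m : ι → ℤ) (r : ℝ) (T0 : ℝ) (i : ι)
    (z : ℝ × ℝ) : Prop :=
  (∀ x : ℝ, |x - z.1| ≤ r → q τ (lev i) x = m i) ∧ |z.2 - c i - s i * z.1| ≤ T0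

/-- The pair `(z, j)` is seen from `ζ` : the support of the kernel `k j (u z) z ζ`. -/
def Over (u : ℝ × ℝ → ℝ) (j : ℕ) (z ζ : ℝ × ℝ) : Prop :=
  |z.1 - ζ.1| ≤ 1 / (8 * 2 ^ j) ∧ |ζ.2 - z.2 - (ζ.1 - z.1) * u z| ≤ 1

/-- A `SEP0` family of trees. `W` = width of the trees, `Mg` = margin in the cells of the tops,
`T0` = tolerance of the offsets, `R0` = constant of the separation. -/
structure Sep0 {ι : Type} (u : ℝ × ℝ → ℝ) (τ A W Mg T0 R0 : ℝ) (n : ℕ) (s c : ι → ℝ) (lev : ι → ℕ)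
    (m : ι → ℤ) (E : ι → ℕ → Set (ℝ × ℝ)) : Prop where
  meas : ∀ i j, MeasurableSet (E i j)
  lt : ∀ i j, n ≤ j → E i j = ∅
  bdd : ∃ r : ℝ, ∀ i j, ∀ z ∈ E i j, |z.1| ≤ r ∧ |z.2| ≤ r
  slope : ∀ i j, ∀ z ∈ E i j, |u z - s i| ≤ A * 2 ^ j
  scale : ∀ i j, ∀ z ∈ E i j, lev i ≤ j
  line : ∀ i j, ∀ z ∈ E i j, |z.2 - c i - s i * z.1| ≤ W
  inside : ∀ i j, ∀ z ∈ E i j, ∀ x : ℝ, |x - z.1| ≤ Mg / 2 ^ j → q τ (lev i) x = m i
  conv : ∀ i z, ∀ j k l : ℕ, j ≤ k → k ≤ l → z ∈ E i j → z ∈ E i l → z ∈ E i k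
  uniq : ∀ i i' j j' z, z ∈ E i j → z ∈ E i' j' → i = i'
  sep : ∀ i i', i ≠ i' → ∀ j, ∀ z ∈ E i j, lev i' ≤ j → q τ (lev i') z.1 = m i' →
    |z.2 - c i' - s i' * z.1| ≤ T0 → R0 * 2 ^ j ≤ |s i - s i'|

section

variable {ι : Type} (τ : ℝ) (s c : ι → ℝ) (lev : ι → ℕ) (m : ι → ℤ) (E : ι → ℕ → Set (ℝ × ℝ))

/-- The good pairs: `Q`-separated from all the longer tops near them (tolerance `T`). -/
def GdP (Q T : ℝ) (i : ι) (j : ℕ) : Set (ℝ × ℝ) :=
  {z | z ∈ E i j ∧ ∀ i', i' ≠ i → nearT τ s c lev m (2 / 2 ^ j) T i' z →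
    Q * 2 ^ j ≤ |s i - s i'|}

/-- The bad pairs. -/
def BdP (Q T : ℝ) (i : ι) (j : ℕ) : Set (ℝ × ℝ) :=
  {z | z ∈ E i j ∧ ∃ i', i' ≠ i ∧ nearT τ s c lev m (2 / 2 ^ j) T i' z ∧
    |s i - s i'| < Q * 2 ^ j}

theorem gd_sub (Q T : ℝ) (i : ι) (j : ℕ) : GdP τ s c lev m E Q T i j ⊆ E i j := fun _ h => h.1

theorem bd_sub (Q T : ℝ) (i : ι) (j : ℕ) : BdP τ s c lev m E Q T i j ⊆ E i j := fun _ h => h.1

theorem gd_union_bd (Q T : ℝ) (i : ι) (j : ℕ) :
    GdP τ s c lev m E Q T i j ∪ BdP τ s c lev m E Q T i j = E i j := by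
  ext z
  constructor
  · rintro (h | h)
    · exact h.1
    · exact h.1
  · intro hz
    by_cases h : ∃ i', i' ≠ i ∧ nearT τ s c lev m (2 / 2 ^ j) T i' z ∧
        |s i - s i'| < Q * 2 ^ j
    · exact Or.inr ⟨hz, h⟩
    · refine Or.inl ⟨hz, fun i' h1 h3 => ?_⟩
      by_contra h4
      exact h ⟨i', h1, h3, not_le.1 h4⟩

theorem gd_disj_bd (Q T : ℝ) (i : ι) (j : ℕ) :
    Disjoint (GdP τ s c lev m E Q T i j) (BdP τ s c lev m E Q T i j) := by
  rw [Set.disjoint_left]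
  rintro z ⟨_, h1⟩ ⟨_, i', h2, h4, h5⟩
  exact absurd (h1 i' h2 h4) (not_le.2 h5)

theorem meas_qq (i : ℕ) : Measurable (fun z : ℝ × ℝ => q τ i z.1) := by
  unfold q
  exact Int.measurable_floor.comp (measurable_const.mul (measurable_fst.sub_const τ))

theorem q_mono (i : ℕ) {x y : ℝ} (h : x ≤ y) : q τ i x ≤ q τ i y := by
  unfold q
  apply Int.floor_le_floor
  have : (0 : ℝ) < 2 ^ i := by positivity
  gcongr

theorem inside_iff {r : ℝ} (hr : 0 ≤ r) (i : ℕ) (k : ℤ) (x0 : ℝ) :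
    (∀ x : ℝ, |x - x0| ≤ r → q τ i x = k) ↔ (q τ i (x0 - r) = k ∧ q τ i (x0 + r) = k) := by
  constructor
  · intro h
    refine ⟨h _ ?_, h _ ?_⟩
    · rw [sub_sub_cancel_left, abs_neg, abs_of_nonneg hr]
    · rw [add_sub_cancel_left, abs_of_nonneg hr]
  · rintro ⟨h1, h2⟩ x hx
    rw [abs_le] at hx
    have a1 := q_mono τ i (show x0 - r ≤ x by linarith)
    have a2 := q_mono τ i (show x ≤ x0 + r by linarith)
    omega

theorem meas_near {r : ℝ} (hr : 0 ≤ r) (T0 : ℝ) (i : ι) :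
    MeasurableSet {z | nearT τ s c lev m r T0 i z} := by
  have h1 : {z : ℝ × ℝ | nearT τ s c lev m r T0 i z} =
      ({z | q τ (lev i) (z.1 - r) = m i} ∩ {z | q τ (lev i) (z.1 + r) = m i}) ∩
        {z | |z.2 - c i - s i * z.1| ≤ T0} := by
    ext z
    simp only [nearT, mem_ofPred_eq, mem_inter_iff]
    rw [inside_iff τ hr]
  have hq : Measurable fun x : ℝ => q τ (lev i) x := by
    unfold q
    exact Int.measurable_floor.comp (measurable_const.mul (measurable_id.sub_const τ))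
  have h2 : Measurable fun z : ℝ × ℝ => |z.2 - c i - s i * z.1| := by fun_prop
  rw [h1]
  refine MeasurableSet.inter (MeasurableSet.inter ?_ ?_) (measurableSet_le h2 measurable_const)
  · exact (hq.comp (measurable_fst.sub_const r)) (MeasurableSet.of_discrete (s := {m i}))
  · exact (hq.comp (measurable_fst.add_const r)) (MeasurableSet.of_discrete (s := {m i}))

/-- A witness is longer than the pair. -/
theorem lev_le_of_near {i : ι} {j : ℕ} {T0 : ℝ} {z : ℝ × ℝ}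
    (h : nearT τ s c lev m (2 / 2 ^ j) T0 i z) : lev i ≤ j := by
  by_contra hlt
  rw [not_le] at hlt
  have h1 : (1 : ℝ) / 2 ^ lev i ≤ 2 / 2 ^ j := by
    have a1 : (1 : ℝ) / 2 ^ lev i ≤ 1 / 2 ^ j :=
      one_div_le_one_div_of_le (by positivity) (pow_le_pow_right₀ (by norm_num) hlt.le)
    have a2 : (1 : ℝ) / 2 ^ j ≤ 2 / 2 ^ j := by gcongr; norm_num
    linarith
  have h2 := h.1 (z.1 + 1 / 2 ^ lev i) (by
    rw [add_sub_cancel_left, abs_of_pos (by positivity)]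
    exact h1)
  have h3 := h.1 z.1 (by rw [sub_self, abs_zero]; positivity)
  have h4 : q τ (lev i) (z.1 + 1 / 2 ^ lev i) = q τ (lev i) z.1 + 1 := by
    unfold q
    rw [← Int.floor_add_one]
    congr 1
    have : (2 : ℝ) ^ lev i ≠ 0 := by positivity
    field_simp
    ring
  omega

variable {τ s c lev m E}

theorem meas_bd [Finite ι] (hE : ∀ i j, MeasurableSet (E i j)) (Q T : ℝ) (i : ι) (j : ℕ) :
    MeasurableSet (BdP τ s c lev m E Q T i j) := by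
  have : BdP τ s c lev m E Q T i j = E i j ∩
      ⋃ i' ∈ {i' : ι | i' ≠ i ∧ |s i - s i'| < Q * 2 ^ j},
        {z | nearT τ s c lev m (2 / 2 ^ j) T i' z} := by
    ext z
    simp only [BdP, mem_ofPred_eq, mem_inter_iff, mem_iUnion, exists_prop]
    constructor
    · rintro ⟨h, i', h1, h3, h4⟩
      exact ⟨h, i', ⟨h1, h4⟩, h3⟩
    · rintro ⟨h, i', ⟨h1, h4⟩, h3⟩
      exact ⟨h, i', h1, h3, h4⟩
  rw [this]
  refine (hE i j).inter (MeasurableSet.biUnion (Set.to_countable _) fun i' _ => ?_)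
  exact meas_near τ s c lev m (by positivity) T i'

theorem meas_gd [Finite ι] (hE : ∀ i j, MeasurableSet (E i j)) (Q T : ℝ) (i : ι) (j : ℕ) :
    MeasurableSet (GdP τ s c lev m E Q T i j) := by
  have : GdP τ s c lev m E Q T i j = E i j \ BdP τ s c lev m E Q T i j := by
    ext z
    constructor
    · intro h
      exact ⟨h.1, fun h' => Set.disjoint_left.1 (gd_disj_bd τ s c lev m E Q T i j) h h'⟩
    · rintro ⟨h, h'⟩
      have h2 : z ∈ GdP τ s c lev m E Q T i j ∪ BdP τ s c lev m E Q T i j := by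
        rw [gd_union_bd]; exact h
      exact h2.resolve_right h'
  rw [this]
  exact (hE i j).diff (meas_bd hE Q T i j)

/-- The good scales of a point form an initial segment. -/
theorem gd_initial {Q T : ℝ} (hQ : 0 ≤ Q) {i : ι} {j k : ℕ} (hjk : j ≤ k) {z : ℝ × ℝ}
    (hj : z ∈ E i j) (hk : z ∈ GdP τ s c lev m E Q T i k) : z ∈ GdP τ s c lev m E Q T i j := by
  refine ⟨hj, fun i' h1 h3 => ?_⟩
  have h2 : (2 : ℝ) ^ j ≤ 2 ^ k := pow_le_pow_right₀ (by norm_num) hjk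
  refine le_trans ?_ (hk.2 i' h1 ⟨fun x hx => h3.1 x (hx.trans ?_), h3.2⟩)
  · gcongr
  · gcongr

/-- The bad scales of a point form a final segment. -/
theorem bd_final {Q T : ℝ} (hQ : 0 ≤ Q) {i : ι} {j k : ℕ} (hjk : j ≤ k) {z : ℝ × ℝ}
    (hk : z ∈ E i k) (hj : z ∈ BdP τ s c lev m E Q T i j) : z ∈ BdP τ s c lev m E Q T i k := by
  obtain ⟨_, i', h1, h3, h4⟩ := hj
  have h2 : (2 : ℝ) ^ j ≤ 2 ^ k := pow_le_pow_right₀ (by norm_num) hjk
  refine ⟨hk, i', h1, ⟨fun x hx => h3.1 x (hx.trans ?_), h3.2⟩, lt_of_lt_of_le h4 ?_⟩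
  · gcongr
  · gcongr

theorem gd_conv {Q T : ℝ} (hQ : 0 ≤ Q)
    (hc : ∀ i z, ∀ j k l : ℕ, j ≤ k → k ≤ l → z ∈ E i j → z ∈ E i l → z ∈ E i k) :
    ∀ i z, ∀ j k l : ℕ, j ≤ k → k ≤ l → z ∈ GdP τ s c lev m E Q T i j →
      z ∈ GdP τ s c lev m E Q T i l → z ∈ GdP τ s c lev m E Q T i k :=
  fun i z j k l h1 h2 h3 h4 => gd_initial hQ h2 (hc i z j k l h1 h2 h3.1 h4.1) h4

theorem bd_conv {Q T : ℝ} (hQ : 0 ≤ Q)
    (hc : ∀ i z, ∀ j k l : ℕ, j ≤ k → k ≤ l → z ∈ E i j → z ∈ E i l → z ∈ E i k) :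
    ∀ i z, ∀ j k l : ℕ, j ≤ k → k ≤ l → z ∈ BdP τ s c lev m E Q T i j →
      z ∈ BdP τ s c lev m E Q T i l → z ∈ BdP τ s c lev m E Q T i k :=
  fun i z j k l h1 h2 h3 h4 => bd_final hQ h1 (hc i z j k l h1 h2 h3.1 h4.1) h3

end

/-! ### geometry of two pairs seen from one point -/

theorem over_x {u : ℝ × ℝ → ℝ} {j j' : ℕ} (hjj : j ≤ j') {z z' ζ : ℝ × ℝ} (h : Over u j z ζ)
    (h' : Over u j' z' ζ) : |z'.1 - z.1| ≤ 1 / 4 / 2 ^ j := by
  have hp : (0 : ℝ) < 2 ^ j := by positivity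
  have h1 : (1 : ℝ) / (8 * 2 ^ j') ≤ 1 / (8 * 2 ^ j) := by
    apply one_div_le_one_div_of_le (by positivity)
    have : (2 : ℝ) ^ j ≤ 2 ^ j' := pow_le_pow_right₀ (by norm_num) hjj
    linarith
  have h2 : |z'.1 - z.1| ≤ |z'.1 - ζ.1| + |z.1 - ζ.1| := by
    have : z'.1 - z.1 = (z'.1 - ζ.1) - (z.1 - ζ.1) := by ring
    rw [this]
    exact abs_sub _ _
  have h3 : (1 : ℝ) / (8 * 2 ^ j) + 1 / (8 * 2 ^ j) = 1 / 4 / 2 ^ j := by
    field_simp; norm_num
  linarith [h.1, h'.1]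

/-- offset of one pair relative to a line of slope `σ`, in terms of the offset of the other -/
theorem over_off {u : ℝ × ℝ → ℝ} {j j' : ℕ} {z z' ζ : ℝ × ℝ} (h : Over u j z ζ)
    (h' : Over u j' z' ζ) {σ d b b' : ℝ} (hb : |u z - σ| ≤ b * 2 ^ j)
    (hb' : |u z' - σ| ≤ b' * 2 ^ j') :
    |z'.2 - d - σ * z'.1| ≤ |z.2 - d - σ * z.1| + 2 + b / 8 + b' / 8 := by
  have hp : (0 : ℝ) < 2 ^ j := by positivity
  have hp' : (0 : ℝ) < 2 ^ j' := by positivity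
  have e : z'.2 - d - σ * z'.1 = (z.2 - d - σ * z.1) + (ζ.2 - z.2 - (ζ.1 - z.1) * u z) -
      (ζ.2 - z'.2 - (ζ.1 - z'.1) * u z') + (ζ.1 - z.1) * (u z - σ) -
        (ζ.1 - z'.1) * (u z' - σ) := by ring
  have h1 : |(ζ.1 - z.1) * (u z - σ)| ≤ b / 8 := by
    rw [abs_mul, abs_sub_comm ζ.1]
    calc |z.1 - ζ.1| * |u z - σ| ≤ 1 / (8 * 2 ^ j) * (b * 2 ^ j) := by
          gcongr
          exact h.1
      _ = b / 8 := by field_simp
  have h2 : |(ζ.1 - z'.1) * (u z' - σ)| ≤ b' / 8 := by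
    rw [abs_mul, abs_sub_comm ζ.1]
    calc |z'.1 - ζ.1| * |u z' - σ| ≤ 1 / (8 * 2 ^ j') * (b' * 2 ^ j') := by
          gcongr
          exact h'.1
      _ = b' / 8 := by field_simp
  rw [e]
  have t1 := abs_sub (z.2 - d - σ * z.1 + (ζ.2 - z.2 - (ζ.1 - z.1) * u z) -
      (ζ.2 - z'.2 - (ζ.1 - z'.1) * u z') + (ζ.1 - z.1) * (u z - σ)) ((ζ.1 - z'.1) * (u z' - σ))
  have t2 := abs_add_le (z.2 - d - σ * z.1 + (ζ.2 - z.2 - (ζ.1 - z.1) * u z) -
      (ζ.2 - z'.2 - (ζ.1 - z'.1) * u z')) ((ζ.1 - z.1) * (u z - σ))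
  have t3 := abs_sub (z.2 - d - σ * z.1 + (ζ.2 - z.2 - (ζ.1 - z.1) * u z))
      (ζ.2 - z'.2 - (ζ.1 - z'.1) * u z')
  have t4 := abs_add_le (z.2 - d - σ * z.1) (ζ.2 - z.2 - (ζ.1 - z.1) * u z)
  linarith [h.2, h'.2]

section

variable {ι : Type} {u : ℝ × ℝ → ℝ} {τ A W Mg T0 R0 : ℝ} {n : ℕ} {s c : ι → ℝ} {lev : ι → ℕ}
  {m : ι → ℤ} {E : ι → ℕ → Set (ℝ × ℝ)}

/-- **Window of the bad scales.** -/
theorem Sep0.pin (h0 : Sep0 u τ A W Mg T0 R0 n s c lev m E) {Q T : ℝ} (hQ : 0 ≤ Q)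
    (hT : T + 2 + (A + Q) / 4 ≤ T0) {i : ι} {j j' : ℕ} (hjj : j ≤ j') {z z' ζ : ℝ × ℝ}
    (hz : z ∈ BdP τ s c lev m E Q T i j) (hz' : z' ∈ E i j') (ho : Over u j z ζ)
    (ho' : Over u j' z' ζ) : R0 * 2 ^ j' < Q * 2 ^ j := by
  obtain ⟨hzE, i', h1, h3, h4⟩ := hz
  have h2 : lev i' ≤ j := lev_le_of_near τ s c lev m h3
  refine lt_of_le_of_lt ?_ h4
  have hp : (0 : ℝ) < 2 ^ j := by positivity
  have hjp : (2 : ℝ) ^ j ≤ 2 ^ j' := pow_le_pow_right₀ (by norm_num) hjj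
  refine h0.sep i i' (Ne.symm h1) j' z' hz' (h2.trans hjj) ?_ ?_
  · refine h3.1 _ ((over_x hjj ho ho').trans ?_)
    gcongr
    norm_num
  · have b1 : |u z - s i'| ≤ (A + Q) * 2 ^ j := by
      have e : u z - s i' = (u z - s i) + (s i - s i') := by ring
      rw [e]
      refine (abs_add_le _ _).trans ?_
      have := h0.slope i j z hzE
      linarith
    have b2 : |u z' - s i'| ≤ (A + Q) * 2 ^ j' := by
      have e : u z' - s i' = (u z' - s i) + (s i - s i') := by ring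
      rw [e]
      refine (abs_add_le _ _).trans ?_
      have := h0.slope i j' z' hz'
      have h5 : Q * 2 ^ j ≤ Q * 2 ^ j' := by gcongr
      linarith
    have b3 := over_off ho ho' (σ := s i') (d := c i') b1 b2
    have b4 := h3.2
    linarith

/-- Two different trees seen from one point have slopes at least `R0 2 ^ max` apart. -/
theorem Sep0.two (h0 : Sep0 u τ A W Mg T0 R0 n s c lev m E) (hMg : 1 / 4 ≤ Mg)
    (hT : W + 2 + A / 4 + R0 / 8 ≤ T0) {i i' : ι} (hi : i ≠ i') {j j' : ℕ} {z z' ζ : ℝ × ℝ}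
    (hz : z ∈ E i j) (hz' : z' ∈ E i' j') (ho : Over u j z ζ) (ho' : Over u j' z' ζ) :
    R0 * 2 ^ max j j' ≤ |s i - s i'| := by
  -- it is enough to treat the case `j ≤ j'`
  have key : ∀ (i i' : ι) (_ : i ≠ i') (j j' : ℕ) (_ : j ≤ j') (z z' : ℝ × ℝ), z ∈ E i j →
      z' ∈ E i' j' → Over u j z ζ → Over u j' z' ζ → R0 * 2 ^ j' ≤ |s i - s i'| := by
    intro i i' hi j j' hjj z z' hz hz' ho ho'
    by_contra hlt
    rw [not_le] at hlt
    have hsc := h0.scale i j z hz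
    have h1 : R0 * 2 ^ j' ≤ |s i' - s i| := by
      refine h0.sep i' i (Ne.symm hi) j' z' hz' (hsc.trans hjj) ?_ ?_
      · refine h0.inside i j z hz _ ((over_x hjj ho ho').trans ?_)
        gcongr
      · have b1 : |u z - s i| ≤ A * 2 ^ j := h0.slope i j z hz
        have b2 : |u z' - s i| ≤ (A + R0) * 2 ^ j' := by
          have e : u z' - s i = (u z' - s i') + (s i' - s i) := by ring
          rw [e]
          refine (abs_add_le _ _).trans ?_
          have := h0.slope i' j' z' hz'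
          rw [abs_sub_comm (s i')]
          linarith
        have b3 := over_off ho ho' (σ := s i) (d := c i) b1 b2
        have b4 := h0.line i j z hz
        linarith
    rw [abs_sub_comm] at h1
    linarith
  rcases le_total j j' with h | h
  · rw [max_eq_right h]
    exact key i i' hi j j' h z z' hz hz' ho ho'
  · rw [max_eq_left h, abs_sub_comm]
    exact key i' i (Ne.symm hi) j' j h z' z hz' hz ho' ho

/-- **Pair against pair separation of the good part** (form of helper870). -/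
theorem Sep0.gd_pair (h0 : Sep0 u τ A W Mg T0 R0 n s c lev m E) {ρ : ℝ} (hMg : 2 + ρ ≤ Mg)
    {Q T : ℝ} {i i' : ι} (hi : i ≠ i') {j j' : ℕ} (hjj : j' ≤ j) {z z' : ℝ × ℝ}
    (hz : z ∈ GdP τ s c lev m E Q T i j) (hz' : z' ∈ E i' j') (hx : |z.1 - z'.1| ≤ ρ / 2 ^ j')
    (ho : |z.2 - c i' - s i' * z.1| ≤ T) : Q * 2 ^ j ≤ |s i - s i'| := by
  refine hz.2 i' (Ne.symm hi) ⟨fun x hx2 => h0.inside i' j' z' hz' x ?_, ho⟩
  have h1 : (2 : ℝ) / 2 ^ j ≤ 2 / 2 ^ j' := by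
    have : (2 : ℝ) ^ j' ≤ 2 ^ j := pow_le_pow_right₀ (by norm_num) hjj
    gcongr
  have h2 : |x - z'.1| ≤ |x - z.1| + |z.1 - z'.1| := abs_sub_le _ _ _
  have h3 : (2 : ℝ) / 2 ^ j' + ρ / 2 ^ j' ≤ Mg / 2 ^ j' := by
    rw [← add_div]
    gcongr
  linarith

open Classical in
/-- The number of bad scales seen from one point. -/
theorem Sep0.card_bad (h0 : Sep0 u τ A W Mg T0 R0 n s c lev m E) {Q T : ℝ} (hQ : 0 ≤ Q)
    (hR : 0 < R0) (hT : T + 2 + (A + Q) / 4 ≤ T0) {w : ℕ} (hw : Q ≤ R0 * 2 ^ w) (i : ι)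
    (ζ : ℝ × ℝ) :
    ((Finset.range n).filter fun j => ∃ z ∈ BdP τ s c lev m E Q T i j, Over u j z ζ).card ≤ w := by
  rcases Finset.eq_empty_or_nonempty
    ((Finset.range n).filter fun j => ∃ z ∈ BdP τ s c lev m E Q T i j, Over u j z ζ) with he | hne
  · rw [he]; simp
  · set F := (Finset.range n).filter fun j => ∃ z ∈ BdP τ s c lev m E Q T i j, Over u j z ζ with hF
    obtain ⟨hj0, hmin⟩ : F.min' hne ∈ F ∧ ∀ j ∈ F, F.min' hne ≤ j :=
      ⟨Finset.min'_mem _ _, fun j hj => Finset.min'_le _ _ hj⟩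
    obtain ⟨_, z, hz, ho⟩ := Finset.mem_filter.1 hj0
    have hsub : F ⊆ Finset.Ico (F.min' hne) (F.min' hne + w) := by
      intro j hj
      obtain ⟨_, z', hz', ho'⟩ := Finset.mem_filter.1 hj
      have h1 := h0.pin hQ hT (hmin j hj) hz hz'.1 ho ho'
      rw [Finset.mem_Ico]
      refine ⟨hmin j hj, ?_⟩
      by_contra hge
      rw [not_lt] at hge
      have h2 : (2 : ℝ) ^ (F.min' hne + w) ≤ 2 ^ j := pow_le_pow_right₀ (by norm_num) hge
      have h3 : Q * 2 ^ (F.min' hne) ≤ R0 * 2 ^ j := by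
        calc Q * 2 ^ (F.min' hne) ≤ R0 * 2 ^ w * 2 ^ (F.min' hne) := by gcongr
          _ = R0 * 2 ^ (F.min' hne + w) := by rw [pow_add]; ring
          _ ≤ R0 * 2 ^ j := by gcongr
      linarith
    have := Finset.card_le_card hsub
    simpa using this

end

end Vale.Agent.P112.H540
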